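import Vale.Agent.P273.H828.Base1

/-!
# P273, NEG: adapted bases, the base vectors of `Neg` in the one-node chart
-/

noncomputable section

namespace Vale.Agent.P273.H828

open Set MeasureTheory Filter Topology
open Vale.Agent.P273.H681 Vale.Agent.P273.H95 Vale.Agent.P273.H879

/-! ### adapted bases -/

/-- the vectors of an adapted basis -/
def adM : Fin 5 → Matrix (Fin 4) (Fin 4) ℝ :=
  ![!![0, 1, 0, 0; 1, 0, 0, 0; 0, 0, 1, 0; 0, 0, 0, 1],
    !![1, 0, 0, 0; 0, 1, 0, 0; 0, 0, 1, 0; 0, 0, 0, 1],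
    !![0, 1, 0, 0; 1, 0, 1, 0; 0, 0, 1, 0; 0, 1, 0, -1],
    !![0, 0, 1, 0; 0, 0, 0, 1; 1, 0, 0, 0; 0, 1, 0, 0],
    !![0, 0, 0, 1; 0, 0, 1, 0; 1, 0, 0, 0; 0, 1, 0, 0]]

theorem adM_det (k : Fin 5) : (adM k).det ≠ 0 := by
  fin_cases k <;>
    simp [adM, Matrix.det_succ_row_zero, Fin.sum_univ_succ, Matrix.submatrix, Fin.succAbove]

/-- **(e1)** -/
theorem exists_isAd (k : Fin 5) : ∃ b : Module.Basis (Fin 4) ℝ H4, IsAd k b := by
  have hli := Matrix.linearIndependent_rows_of_det_ne_zero (adM_det k)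
  refine ⟨basisOfLinearIndependentOfCardEqFinrank hli (by simp), ?_⟩
  unfold IsAd
  simp only [coe_basisOfLinearIndependentOfCardEqFinrank]
  fin_cases k <;> simp [adM, dk, om] <;> rfl

/-! ### the base coordinates -/

/-- the label of the other root `l` -/
def jo (k : Fin 5) (l : Fin 4) : Fin 6 := ⟨if l.1 < k.1 then l.1 else l.1 + 2, by split_ifs <;> omega⟩

theorem jo_oj : ∀ (k : Fin 5) (j : Fin 6), j ≠ k.castSucc → j ≠ k.succ → jo k (oj k j) = j := by
  decide

theorem oj_jo : ∀ (k : Fin 5) (l : Fin 4), oj k (jo k l) = l := by decide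

theorem jo_ne : ∀ (k : Fin 5) (l : Fin 4), jo k l ≠ k.castSucc ∧ jo k l ≠ k.succ := by decide

/-- base coordinates of a configuration -/
def bv (k : Fin 5) (b : C6) : Fin 5 → ℂ := Fin.cons (b k.castSucc) fun l => b (jo k l)

@[simp] theorem bv_zero (k : Fin 5) (b : C6) : bv k b 0 = b k.castSucc := rfl

@[simp] theorem bv_succ (k : Fin 5) (b : C6) (l : Fin 4) : bv k b l.succ = b (jo k l) := rfl

theorem norm_bv_le (k : Fin 5) (b : C6) (a : Fin 5) : ‖bv k b a‖ ≤ ‖b‖ := by
  refine Fin.cases ?_ (fun l => ?_) a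
  · exact norm_le_pi_norm b _
  · exact norm_le_pi_norm b _

variable {R : Region1} {m : Fin (R.n + 1)}

/-- the merged configuration of a point with base coordinates `bv k b` -/
theorem base_pr {k : Fin 5} {b : C6} (hb : b k.castSucc = b k.succ) {z : R.Cm ⊕ Fin 5 → ℂ}
    (hz : ∀ a, z (Sum.inr a) = bv k b a) :
    pr k (fun j => z (Sum.inr (oj k j).succ)) (z (Sum.inr 0)) 0 = b := by
  funext j
  simp only [pr, hz, bv_zero, bv_succ]
  split_ifs with h1 h2
  · rw [h1, sub_zero]
  · rw [h2, add_zero, hb]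
  · rw [jo_oj k j h1 h2]

/-- **the point of the base** -/
theorem toE_fam' {k : Fin 5} {c : ℝ} (hc : 0 < c) {b : C6} {l s : ℝ} {p : Co1 R m}
    (hy : p.2.2.1 () = 2 * (l + Real.log c)) (ha : p.2.2.2.1 () = -(2 * Real.pi * s))
    (hz : ∀ a, p.2.2.2.2 (Sum.inr a) = bv k b a) :
    zh c p = zz l s ∧ (toE k c p).1 = fam k b l s :=
  toE_fam hc hy ha (by rw [hz]; rfl) fun j h1 h2 => by rw [hz, bv_succ, jo_oj k j h1 h2]

theorem dbase_eul (k : Fin 5) (c : ℝ) (p : Co1 R m) :
    dbase k c p ((wr R m).eul p ()) = pr k 0 0 (-(zh c p) / 2) := by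
  rw [← dbase_y]
  funext j
  simp [dbase, pr, H732.Reg.vec, H732.Reg.eul]

theorem pr_smul (k : Fin 5) (t : ℝ) (d : ℂ) : t • pr k 0 0 d = pr k 0 0 (t * d) := by
  rw [← IL_eq, ← IL_eq, ← map_smul, Complex.real_smul]

/-- **(e2), radial direction** -/
theorem neg_vec_y {k : Fin 5} {c : ℝ} {p : Co1 R m} {l s : ℝ} (hzh : zh c p = zz l s)
    {A : Co1 R m →L[ℝ] E} (h : HasFDerivAt (toE k c) A p) :
    pr k 0 0 (-zz l s) = (2 : ℝ) • (A (evec p (.y ()))).1 := by
  rw [base_of_hasFDerivAt h]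
  show _ = (2 : ℝ) • dbase k c p ((wr R m).eul p ())
  rw [dbase_eul, pr_smul, hzh]
  congr 1
  push_cast
  ring

/-- **(e2), angular direction** -/
theorem neg_vec_al {k : Fin 5} {c : ℝ} {p : Co1 R m} {l s : ℝ} (hzh : zh c p = zz l s)
    {A : Co1 R m →L[ℝ] E} (h : HasFDerivAt (toE k c) A p) :
    pr k 0 0 (-(Real.pi * Complex.I) * zz l s) =
      (-(2 * Real.pi)) • (A (evec p (.al ()))).1 := by
  rw [base_of_hasFDerivAt h]
  show _ = (-(2 * Real.pi)) • dbase k c p ((wr R m).vec (.al ()))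
  rw [dbase_al, pr_smul, hzh]
  congr 1
  push_cast
  ring

/-- the base vector of a base coordinate -/
def bw (k : Fin 5) (a : Fin 5) (t : ℂ) : C6 :=
  pr k (fun j => if (oj k j).succ = a then t else 0) (if a = 0 then t else 0) 0

theorem dbase_re (k : Fin 5) (c : ℝ) (p : Co1 R m) (a : Fin 5) :
    dbase k c p ((wr R m).vec (.re (Sum.inr a))) = bw k a 1 := by
  funext j
  simp only [dbase, pr, bw, H732.Reg.vec, Pi.zero_apply, Complex.ofReal_zero, neg_zero, zero_mul,
    add_zero, mul_zero, zero_div, sub_zero, Pi.single_apply, Sum.inr.injEq]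
  simp only [eq_comm]

theorem dbase_im (k : Fin 5) (c : ℝ) (p : Co1 R m) (a : Fin 5) :
    dbase k c p ((wr R m).vec (.im (Sum.inr a))) = bw k a Complex.I := by
  funext j
  simp only [dbase, pr, bw, H732.Reg.vec, Pi.zero_apply, Complex.ofReal_zero, neg_zero, zero_mul,
    add_zero, mul_zero, zero_div, sub_zero, Pi.single_apply, Sum.inr.injEq]
  simp only [eq_comm]

/-- decomposition of a rigid motion -/
theorem sum_bw {k : Fin 5} {w : C6} (hw : w k.castSucc = w k.succ) :
    w = ∑ a : Fin 5, ((bv k w a).re • bw k a 1 + (bv k w a).im • bw k a Complex.I) := by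
  have key : ∀ a : Fin 5, (bv k w a).re • bw k a 1 + (bv k w a).im • bw k a Complex.I =
      bw k a (bv k w a) := by
    intro a
    funext j
    have h : ((bv k w a).re : ℂ) + (bv k w a).im * Complex.I = bv k w a := Complex.re_add_im _
    simp only [bw, pr, Pi.add_apply, Pi.smul_apply, Complex.real_smul, sub_zero, add_zero]
    split_ifs <;> simp [h]
  rw [Finset.sum_congr rfl fun a _ => key a]
  funext j
  rw [Finset.sum_apply]
  simp only [bw, pr, sub_zero, add_zero]
  by_cases h1 : j = k.castSucc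
  · simp only [h1, if_true]
    rw [Finset.sum_eq_single (0 : Fin 5)]
    · simp
    · intro a _ ha; simp [ha]
    · simp
  · by_cases h2 : j = k.succ
    · simp only [h2, (castSucc_ne_succ k).symm, if_true, if_false]
      rw [Finset.sum_eq_single (0 : Fin 5)]
      · simp [hw]
      · intro a _ ha; simp [ha]
      · simp
    · simp only [h1, h2, if_false]
      rw [Finset.sum_eq_single (oj k j).succ]
      · simp [jo_oj k j h1 h2]
      · intro a _ ha
        rw [if_neg (fun h => ha h.symm)]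
      · simp

/-- **(e2), rigid motions** -/
theorem neg_vec_w {k : Fin 5} {c : ℝ} {p : Co1 R m} {A : Co1 R m →L[ℝ] E}
    (h : HasFDerivAt (toE k c) A p) {w : C6} (hw : w k.castSucc = w k.succ) :
    w = ∑ a : Fin 5, ((bv k w a).re • (A (evec p (.re (Sum.inr a)))).1 +
      (bv k w a).im • (A (evec p (.im (Sum.inr a)))).1) := by
  have e : ∀ a : Fin 5, (bv k w a).re • (A (evec p (.re (Sum.inr a)))).1 +
      (bv k w a).im • (A (evec p (.im (Sum.inr a)))).1 =
      (bv k w a).re • bw k a 1 + (bv k w a).im • bw k a Complex.I := by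
    intro a
    rw [base_of_hasFDerivAt h, base_of_hasFDerivAt h]
    show (bv k w a).re • dbase k c p ((wr R m).vec (.re (Sum.inr a))) +
      (bv k w a).im • dbase k c p ((wr R m).vec (.im (Sum.inr a))) = _
    rw [dbase_re, dbase_im]
  rw [Finset.sum_congr rfl fun a _ => e a]
  exact sum_bw hw

end Vale.Agent.P273.H828
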