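import Vale.Agent.P273.H828.Ann0

/-!
# P273, row ANN: tori, annuli, tubes; the statement of the passage from the cells of fixed size to
the tori and annuli of size `r` at the theta point
-/

noncomputable section

namespace Vale.Agent.P273.H828

open Set MeasureTheory Filter Topology
open Vale.Agent.P273.H401 Vale.Agent.P273.H681

variable {V F : Type*} [AddCommGroup V] [Module ℝ V] [NormedAddCommGroup F] [NormedSpace ℝ F]

/-- replace the points `k`, `k+1` by `m - d` and `m + d` -/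
def pr (k : Fin 5) (b : C6) (m d : ℂ) : C6 := fun j =>
  if j = k.castSucc then m - d else if j = k.succ then m + d else b j

/-- the rotated and scaled half difference: length `l`, angle `π s` (clockwise: the point `k`
passes above the point `k + 1`) -/
def zz (l s : ℝ) : ℂ := Complex.exp (-(l : ℂ) - Real.pi * s * Complex.I)

/-- the theta configuration: pairs at the centres `3/2`, `7/2`, `11/2`, half differences `d 0`,
`d 1`, `d 2` -/
def th (d : Fin 3 → ℂ) : C6 :=
  ![3 / 2 - d 0, 3 / 2 + d 0, 7 / 2 - d 1, 7 / 2 + d 1, 11 / 2 - d 2, 11 / 2 + d 2]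

/-- the torus where the pairs `i` and `j` turn; size `r` (the half differences have modulus
`r / 2`) -/
def torF (r : ℝ) (i j : Fin 3) (y : Fin 2 → ℝ) : C6 :=
  th fun k => r / 2 * (if k = i then zz 0 (y 0) else if k = j then zz 0 (y 1) else 1)

/-- the punctured disc of the pair `i`, the other pairs fixed of size `r` -/
def annF (r : ℝ) (i : Fin 3) (y : Fin 2 → ℝ) : C6 :=
  th fun k => r / 2 * (if k = i then zz (y 0) (y 1) else 1)

/-- integral over the torus -/
def TOR (D : Loc2 V F) (r : ℝ) (i j : Fin 3) (v : V) : F := cubeInt (pb (torF r i j) (D.Phi v))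

/-- the half strip `[0, ∞) × [0, 1]` -/
def strip : Set (Fin 2 → ℝ) := {y | 0 ≤ y 0 ∧ y 1 ∈ Icc (0 : ℝ) 1}

/-- integral over the punctured disc -/
def ANN (D : Loc2 V F) (r : ℝ) (i : Fin 3) (v : V) : F :=
  ∫ y in strip, pb (annF r i) (D.Phi v) y (eb 2)

/-- configurations where the points `k`, `k+1` coincide and the others are distinct, ordered as in
`XX` -/
def XD (k : Fin 5) : Set C6 := {b | b k.castSucc = b k.succ ∧
  ∀ i j, i < j → (i ≠ k.castSucc ∨ j ≠ k.succ) → (b i).re = (b j).re → (b j).im < (b i).im}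

/-- the family of small pairs at the configuration `b` -/
def fam (k : Fin 5) (b : C6) (l s : ℝ) : C6 := pr k b (b k.castSucc) (zz l s)

/-- **NEG**: for invariant coefficients the form decays at the divisor where the points `k`, `k+1`
coincide: `(N1)` on the two directions of the small pair, `(N2)` on the angle and a direction that
moves the pair rigidly. -/
def Neg (D : Loc2 V F) : Prop :=
  ∀ (k : Fin 5) (v : V), D.s k v = v → ∀ K ⊆ XD k, IsCompact K →
    ∃ (l₀ : ℝ) (g ε : ℝ → ℝ), 0 ≤ l₀ ∧ IntegrableOn g (Ici l₀) ∧ Tendsto g atTop (𝓝 0) ∧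
      Tendsto ε atTop (𝓝 0) ∧ ∀ b ∈ K, ∀ l ≥ l₀, ∀ s ∈ Icc (0 : ℝ) 1, fam k b l s ∈ XX ∧
        ‖D.Phi v (fam k b l s) ![pr k 0 0 (-zz l s), pr k 0 0 (-(Real.pi * Complex.I) * zz l s)]‖
          ≤ g l ∧
        ∀ w : C6, w k.castSucc = w k.succ →
          ‖D.Phi v (fam k b l s) ![pr k 0 0 (-(Real.pi * Complex.I) * zz l s), w]‖ ≤ ε l * ‖w‖

/-- the relations of the braid group for the action on the coefficients -/
def Braid (D : Loc2 V F) : Prop :=
  (∀ i j : Fin 5, i.1 + 1 < j.1 → ∀ v, D.s i (D.s j v) = D.s j (D.s i v)) ∧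
  ∀ i j : Fin 5, i.1 + 1 = j.1 → ∀ v, D.s i (D.s j (D.s i v)) = D.s j (D.s i (D.s j v))

/-- the cycle: coefficients of the three tori and of the negligible pieces (ansatz of helper266),
the vanishing of the integral, and the components of the boundary -/
structure Cyc (D : Loc2 V F) where
  w13 : V
  w15 : V
  w35 : V
  n14 : V
  n25 : V
  n3 : V
  n4 : V
  inv14 : D.s 0 n14 = n14
  inv25 : D.s 4 n25 = n25
  inv3 : D.s 2 n3 = n3
  inv4 : D.s 3 n4 = n4
  zero : phiT D 0 2 w13 + phiT D 0 4 w15 + phiT D 2 4 w35 + phiT D 0 3 n14 + phiT D 1 4 n25 +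
    (phiH D 2 3 n3 + phiH D 2 3 n4) = 0
  /-- component `e_1` -/
  d1 : (D.s 2 w13 - w13) + (D.s 4 w15 - w15) + (D.s 3 n14 - n14) = 0
  /-- component `e_3` -/
  d3 : (w13 - D.s 0 w13) + (D.s 4 w35 - w35) - n3 - D.s 3 (D.s 2 n4) = 0
  /-- component `e_4` -/
  d4 : (n14 - D.s 0 n14) + D.s 2 (D.s 3 n3) + n4 = 0
  /-- component `e_5` -/
  d5 : (w15 - D.s 0 w15) + (w35 - D.s 2 w35) + (n25 - D.s 1 n25) = 0

/-- **the statement of row ANN** -/
def AnnProp (D : Loc2 V F) : Prop := ∀ Z : Cyc D, ∀ r ∈ Ioc (0 : ℝ) 1,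
  TOR D r 0 1 Z.w13 + TOR D r 0 2 Z.w15 + TOR D r 1 2 Z.w35 =
    ANN D r 0 ((D.s 2 Z.w13 - Z.w13) + (D.s 4 Z.w15 - Z.w15)) +
    ANN D r 1 ((Z.w13 - D.s 0 Z.w13) + (D.s 4 Z.w35 - Z.w35)) +
    ANN D r 2 ((Z.w15 - D.s 0 Z.w15) + (Z.w35 - D.s 2 Z.w35))

end Vale.Agent.P273.H828
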