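import Vale.Agent.P273.H828.TubeDefs
import Vale.Agent.P273.H473.Hex

/-!
# P273, row ANN: proof of the tube theorem
-/

noncomputable section

namespace Vale.Agent.P273.H828

open Set MeasureTheory Filter Topology
open Vale.Agent.P273.H401 Vale.Agent.P273.H681

/-- value of the derivative on a basis vector from the derivative along the line -/
theorem fderiv_single {n : ℕ} {E : Type*} [NormedAddCommGroup E] [NormedSpace ℝ E]
    {f : (Fin n → ℝ) → E} {x : Fin n → ℝ} (hf : DifferentiableAt ℝ f x) {j : Fin n} {d : E}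
    (h : HasDerivAt (fun t => f (Function.update x j t)) d (x j)) :
    fderiv ℝ f x (Pi.single j 1) = d := by
  have h1 : HasDerivAt (fun t => Function.update x j t) (Pi.single j 1) (x j) :=
    hasDerivAt_update x j (x j)
  have h2 : HasFDerivAt f (fderiv ℝ f x) (Function.update x j (x j)) := by
    rw [Function.update_eq_self]; exact hf.hasFDerivAt
  exact (h2.comp_hasDerivAt _ h1).unique h

theorem swL_pr (k : Fin 5) (b : C6) (m d : ℂ) : swL k (pr k b m d) = pr k b m (-d) := by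
  funext j
  rw [swL_apply]
  have hne := castSucc_ne_succ k
  by_cases h1 : j = k.castSucc
  · subst h1
    rw [sw_left]
    simp [pr, hne.symm]
  · by_cases h2 : j = k.succ
    · subst h2
      rw [sw_right]
      simp [pr, hne.symm, sub_eq_add_neg]
    · rw [sw_of_ne h1 h2]
      simp [pr, h1, h2]

theorem zz_mul {c : ℝ} (hc : 0 < c) (l s : ℝ) : (c : ℂ) * zz l s = zz (l - Real.log c) s := by
  unfold zz
  have : (c : ℂ) = Complex.exp (Real.log c : ℂ) := by
    rw [← Complex.ofReal_exp, Real.exp_log hc]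
  nth_rewrite 1 [this]
  rw [← Complex.exp_add]
  congr 1
  push_cast
  ring

theorem hasDerivAt_zz_l (l s : ℝ) : HasDerivAt (fun l => zz l s) (-zz l s) l := by
  have h1 : HasDerivAt (fun l : ℝ => -(l : ℂ) - Real.pi * s * Complex.I) (-1) l := by
    have := (Complex.ofRealCLM.hasDerivAt (x := l)).neg.sub_const ((Real.pi * s * Complex.I : ℂ))
    simpa using this
  have h2 := h1.cexp
  unfold zz
  convert h2 using 1
  ring

theorem hasDerivAt_zz_s (l s : ℝ) :
    HasDerivAt (fun s => zz l s) (-(Real.pi * Complex.I) * zz l s) s := by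
  have h1 : HasDerivAt (fun s : ℝ => -(l : ℂ) - Real.pi * s * Complex.I)
      (-(Real.pi * Complex.I)) s := by
    have := ((Complex.ofRealCLM.hasDerivAt (x := s)).const_mul (Real.pi * Complex.I : ℂ)).const_sub
      (-(l : ℂ))
    have e : (fun s : ℝ => -(l : ℂ) - Real.pi * s * Complex.I) =
        fun s : ℝ => -(l : ℂ) - Real.pi * Complex.I * Complex.ofRealCLM s := by
      funext s
      simp only [Complex.ofRealCLM_apply]
      ring
    rw [e]
    simpa using this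
  have h2 := h1.cexp
  unfold zz
  convert h2 using 1
  ring

variable {k : Fin 5}

theorem Tube.R_eq (T : Tube k) (x : Fin 3 → ℝ) : T.R x = JL k (T.b (x 2)) + IL k (T.S x) :=
  pr_eq k _ _

theorem Tube.contDiff (T : Tube k) : ContDiff ℝ 2 T.R := by
  have : T.R = fun x => JL k (T.b (x 2)) + IL k (T.S x) := funext T.R_eq
  rw [this]
  exact ((JL k).contDiff.comp (T.hb.comp (contDiff_apply ℝ ℝ 2))).add ((IL k).contDiff.comp T.hS)

theorem Tube.mem (T : Tube k) {x : Fin 3 → ℝ} (h0 : 0 ≤ x 0) (h1 : x 1 ∈ Icc (0 : ℝ) 1)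
    (h2 : x 2 ∈ Icc (0 : ℝ) 1) : T.R x ∈ XX := by
  have hx : x = ![x 0, x 1, x 2] := by
    funext j; fin_cases j <;> rfl
  have := T.hXX (x 0) (x 1) (x 2) h0 h1 h2
  rw [← hx] at this
  exact this

theorem Tube.deriv_l (T : Tube k) {l s t : ℝ} (hl : T.l₁ < l) :
    HasDerivAt (fun l => T.R ![l, s, t]) (IL k (-(T.ρ t * zz l s))) l := by
  have h1 : HasDerivAt (fun l => JL k (T.b t) + IL k (T.ρ t * zz l s)) (IL k (-(T.ρ t * zz l s))) l := by
    have := ((hasDerivAt_zz_l l s).const_mul (T.ρ t : ℂ))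
    rw [mul_neg] at this
    exact ((IL k).hasFDerivAt.comp_hasDerivAt _ this).const_add _
  refine h1.congr_of_eventuallyEq ?_
  filter_upwards [lt_mem_nhds hl] with l' hl'
  show T.R ![l', s, t] = _
  rw [T.R_eq, T.hfar ![l', s, t] hl']
  rfl

theorem Tube.deriv_s (T : Tube k) {l s t : ℝ} (hl : T.l₁ < l) :
    HasDerivAt (fun s => T.R ![l, s, t]) (IL k (-(Real.pi * Complex.I) * (T.ρ t * zz l s))) s := by
  have h1 : HasDerivAt (fun s => JL k (T.b t) + IL k (T.ρ t * zz l s))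
      (IL k (-(Real.pi * Complex.I) * (T.ρ t * zz l s))) s := by
    have := ((hasDerivAt_zz_s l s).const_mul (T.ρ t : ℂ))
    rw [show (T.ρ t : ℂ) * (-(Real.pi * Complex.I) * zz l s) =
      -(Real.pi * Complex.I) * (T.ρ t * zz l s) by ring] at this
    exact ((IL k).hasFDerivAt.comp_hasDerivAt _ this).const_add _
  refine h1.congr_of_eventuallyEq (Eventually.of_forall fun s' => ?_)
  show T.R ![l, s', t] = _
  rw [T.R_eq, T.hfar ![l, s', t] hl]
  rfl

theorem Tube.deriv_t (T : Tube k) {l s t : ℝ} (hl : T.l₁ < l) :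
    HasDerivAt (fun t => T.R ![l, s, t])
      (JL k (deriv T.b t) + IL k (((deriv T.ρ t : ℝ) : ℂ) * zz l s)) t := by
  have h1 : HasDerivAt (fun t => JL k (T.b t) + IL k (T.ρ t * zz l s))
      (JL k (deriv T.b t) + IL k (((deriv T.ρ t : ℝ) : ℂ) * zz l s)) t := by
    have hb : HasDerivAt T.b (deriv T.b t) t :=
      (T.hb.differentiable (by norm_num) t).hasDerivAt
    have hr : HasDerivAt T.ρ (deriv T.ρ t) t :=
      (T.hρ.differentiable (by norm_num) t).hasDerivAt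
    exact ((JL k).hasFDerivAt.comp_hasDerivAt _ hb).add
      ((IL k).hasFDerivAt.comp_hasDerivAt _ (hr.ofReal_comp.mul_const (zz l s)))
  refine h1.congr_of_eventuallyEq (Eventually.of_forall fun t' => ?_)
  show T.R ![l, s, t'] = _
  rw [T.R_eq, T.hfar ![l, s, t'] hl]
  rfl

variable {V F : Type*} [AddCommGroup V] [Module ℝ V] [NormedAddCommGroup F] [NormedSpace ℝ F]

/-- the map of an annulus at time `t` -/
theorem Tube.diff0 (T : Tube k) (t : ℝ) : ContDiff ℝ 2 (fun y : Fin 2 → ℝ => T.R ![y 0, y 1, t]) :=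
  T.contDiff.comp (contDiff_pi.2 fun j => by
    fin_cases j
    · exact contDiff_apply ℝ ℝ 0
    · exact contDiff_apply ℝ ℝ 1
    · exact contDiff_const)

theorem Tube.diff1 (T : Tube k) (l : ℝ) : ContDiff ℝ 2 (fun y : Fin 2 → ℝ => T.R ![l, y 0, y 1]) :=
  T.contDiff.comp (contDiff_pi.2 fun j => by
    fin_cases j
    · exact contDiff_const
    · exact contDiff_apply ℝ ℝ 0
    · exact contDiff_apply ℝ ℝ 1)

theorem Tube.diff2 (T : Tube k) (Λ s : ℝ) :
    ContDiff ℝ 2 (fun y : Fin 2 → ℝ => T.R ![Λ * y 0, s, y 1]) :=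
  T.contDiff.comp (contDiff_pi.2 fun j => by
    fin_cases j
    · exact contDiff_const.mul (contDiff_apply ℝ ℝ 0)
    · exact contDiff_const
    · exact contDiff_apply ℝ ℝ 1)

theorem pb_two {f : (Fin 2 → ℝ) → C6} {ω : C6 → C6 [⋀^Fin 2]→L[ℝ] F} {y : Fin 2 → ℝ}
    (hf : DifferentiableAt ℝ f y) {d0 d1 : C6}
    (h0 : HasDerivAt (fun t => f ![t, y 1]) d0 (y 0))
    (h1 : HasDerivAt (fun t => f ![y 0, t]) d1 (y 1)) :
    pb f ω y (eb 2) = ω (f y) ![d0, d1] := by
  have e0 : ∀ t, Function.update y 0 t = ![t, y 1] := by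
    intro t; funext j; fin_cases j <;> simp
  have e1 : ∀ t, Function.update y 1 t = ![y 0, t] := by
    intro t; funext j; fin_cases j <;> simp
  show ω (f y) (fun j => fderiv ℝ f y (eb 2 j)) = _
  congr 1
  funext j
  fin_cases j
  · show fderiv ℝ f y (Pi.single 0 1) = d0
    exact fderiv_single hf (by simpa only [e0] using h0)
  · show fderiv ℝ f y (Pi.single 1 1) = d1
    exact fderiv_single hf (by simpa only [e1] using h1)

/-- the data of `Neg` for a tube, in the coordinates of the tube -/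
theorem Tube.neg_data (T : Tube k) {D : Loc2 V F} (hN : Neg D) {v : V} (hv : D.s k v = v) :
    ∃ (l₀ : ℝ) (g ε : ℝ → ℝ), IntegrableOn g (Ici l₀) ∧ Tendsto g atTop (𝓝 0) ∧
      Tendsto ε atTop (𝓝 0) ∧ ∀ t ∈ Icc (0 : ℝ) 1, ∀ s ∈ Icc (0 : ℝ) 1, ∀ l : ℝ, T.l₁ < l →
        l₀ + Real.log (T.ρ t) ≤ l →
        ‖D.Phi v (T.R ![l, s, t]) ![IL k (-(T.ρ t * zz l s)),
          IL k (-(Real.pi * Complex.I) * (T.ρ t * zz l s))]‖ ≤ g (l - Real.log (T.ρ t)) ∧
        ∀ w : C6, w k.castSucc = w k.succ →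
          ‖D.Phi v (T.R ![l, s, t]) ![IL k (-(Real.pi * Complex.I) * (T.ρ t * zz l s)), w]‖ ≤
            ε (l - Real.log (T.ρ t)) * ‖w‖ := by
  obtain ⟨l₀, g, ε, _, hg, hg0, hε, h⟩ := hN k v hv (T.b '' Icc 0 1)
    (by rintro _ ⟨t, ht, rfl⟩; exact T.hXD t ht) (isCompact_Icc.image T.hb.continuous)
  refine ⟨l₀, g, ε, hg, hg0, hε, fun t ht s hs l hl hl0 => ?_⟩
  obtain ⟨_, h1, h2⟩ := h (T.b t) ⟨t, ht, rfl⟩ (l - Real.log (T.ρ t)) (by linarith) s hs
  have e : (T.ρ t : ℂ) * zz l s = zz (l - Real.log (T.ρ t)) s := zz_mul (T.hρ0 t ht) l s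
  have eR : T.R ![l, s, t] = fam k (T.b t) (l - Real.log (T.ρ t)) s := by
    show pr k (T.b t) (T.b t k.castSucc) (T.S ![l, s, t]) = _
    rw [T.hfar ![l, s, t] hl]
    show pr k (T.b t) (T.b t k.castSucc) (T.ρ t * zz l s) = _
    rw [e]
    rfl
  rw [eR, e]
  simp only [IL_eq]
  exact ⟨h1, h2⟩

theorem Tube.integrableOn (T : Tube k) {D : Loc2 V F} (hN : Neg D) {v : V} (hv : D.s k v = v)
    {t : ℝ} (ht : t ∈ Icc (0 : ℝ) 1) :
    IntegrableOn (fun y => pb (fun y : Fin 2 → ℝ => T.R ![y 0, y 1, t]) (D.Phi v) y (eb 2))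
      strip := by
  obtain ⟨l₀, g, ε, hg, _, _, h⟩ := T.neg_data hN hv
  set c := Real.log (T.ρ t) with hc
  have hQ := T.diff0 t
  have hU : IsOpen ((fun y : Fin 2 → ℝ => T.R ![y 0, y 1, t]) ⁻¹' XX) :=
    isOpen_XX.preimage hQ.continuous
  have hcont : ContinuousOn
      (fun y => pb (fun y : Fin 2 → ℝ => T.R ![y 0, y 1, t]) (D.Phi v) y (eb 2)) strip :=
    (continuousOn_pb hU (hQ.of_le (by norm_num)).contDiffOn (D.smooth v).continuousOn
      (fun y hy => hy) (eb 2)).mono fun y hy => T.mem hy.1 hy.2 ht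
  have hgc : IntegrableOn (fun l => g (l - c)) (Ici (l₀ + c)) := by
    have h1 := ((measurePreserving_sub_right volume c).integrableOn_comp_preimage
      (MeasurableEquiv.subRight c).measurableEmbedding (f := g) (s := Ici l₀)).2 hg
    have h2 : (fun x : ℝ => x - c) ⁻¹' Ici l₀ = Ici (l₀ + c) := by
      ext x; simp [le_sub_iff_add_le]
    rw [h2] at h1
    exact h1
  refine integrableOn_strip hcont (l₁ := max (T.l₁ + 1) (l₀ + c)) (G := fun l => g (l - c))
    (hgc.mono_set (Ici_subset_Ici.2 (le_max_right _ _))) ?_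
  intro y hy hy0
  have hl1 : T.l₁ < y 0 := by
    have := (le_max_left (T.l₁ + 1) (l₀ + c)).trans hy0
    linarith
  have hl2 : l₀ + Real.log (T.ρ t) ≤ y 0 := (le_max_right (T.l₁ + 1) (l₀ + c)).trans hy0
  rw [pb_two ((hQ.differentiable (by norm_num)) y) (T.deriv_l hl1) (T.deriv_s hl1)]
  exact (h t ht (y 1) hy.2 (y 0) hl1 hl2).1

theorem Tube.tendsto_end (T : Tube k) {D : Loc2 V F} (hN : Neg D) {v : V} (hv : D.s k v = v)
    {t : ℝ} (ht : t ∈ Icc (0 : ℝ) 1) :
    Tendsto (fun Λ : ℝ => cubeInt (pb (fun y : Fin 2 → ℝ => T.R ![Λ * y 0, y 1, t]) (D.Phi v)))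
      atTop (𝓝 (T.A D v t)) :=
  tendsto_cube (Q := fun y : Fin 2 → ℝ => T.R ![y 0, y 1, t])
    (fun y _ => (T.diff0 t).differentiable (by norm_num) y) (T.integrableOn hN hv ht)

theorem Tube.tendsto_far (T : Tube k) {D : Loc2 V F} (hN : Neg D) {v : V} (hv : D.s k v = v) :
    Tendsto (fun Λ : ℝ => cubeInt (pb (fun y : Fin 2 → ℝ => T.R ![Λ, y 0, y 1]) (D.Phi v)))
      atTop (𝓝 0) := by
  obtain ⟨l₀, g, ε, _, hg, hε, h⟩ := T.neg_data hN hv
  have hbc : Continuous (deriv T.b) := T.hb.continuous_deriv (by norm_num)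
  have hrc : Continuous (deriv T.ρ) := T.hρ.continuous_deriv (by norm_num)
  obtain ⟨M, hM⟩ := isCompact_Icc.exists_bound_of_continuousOn (s := Icc (0 : ℝ) 1)
    (f := fun t => Real.log (T.ρ t))
    (T.hρ.continuous.continuousOn.log fun t ht => (T.hρ0 t ht).ne')
  obtain ⟨B, hB⟩ := isCompact_Icc.exists_bound_of_continuousOn (s := Icc (0 : ℝ) 1)
    (f := fun t => JL k (deriv T.b t)) ((JL k).continuous.comp hbc).continuousOn
  obtain ⟨C, hC⟩ := isCompact_Icc.exists_bound_of_continuousOn (s := Icc (0 : ℝ) 1)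
    (f := fun t => deriv T.ρ t / T.ρ t)
    (hrc.continuousOn.div T.hρ.continuous.continuousOn fun t ht => (T.hρ0 t ht).ne')
  have hB0 : 0 ≤ B := (norm_nonneg _).trans (hB 0 (by simp))
  have hC0 : 0 ≤ C := (norm_nonneg _).trans (hC 0 (by simp))
  have hlim : Tendsto (fun l => |ε l| * B + C * |g l|) atTop (𝓝 0) := by
    have h1 : Tendsto (fun l => |ε l|) atTop (𝓝 0) := by simpa using hε.abs
    have h2 : Tendsto (fun l => |g l|) atTop (𝓝 0) := by simpa using hg.abs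
    simpa using (h1.mul_const B).add (h2.const_mul C)
  rw [NormedAddCommGroup.tendsto_nhds_zero]
  intro δ hδ
  obtain ⟨L, hL⟩ := (eventually_atTop.1 ((hlim.eventually (gt_mem_nhds (half_pos hδ)))))
  filter_upwards [eventually_gt_atTop (max T.l₁ (max (L + M) (l₀ + M)))] with Λ hΛ
  have hΛ1 : T.l₁ < Λ := (le_max_left _ _).trans_lt hΛ
  have hΛ2 : L + M < Λ := ((le_max_left _ _).trans (le_max_right _ _)).trans_lt hΛ
  have hΛ3 : l₀ + M < Λ := ((le_max_right _ _).trans (le_max_right _ _)).trans_lt hΛ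
  have hb : ∀ y ∈ Icc (0 : Fin 2 → ℝ) 1,
      ‖pb (fun y : Fin 2 → ℝ => T.R ![Λ, y 0, y 1]) (D.Phi v) y (eb 2)‖ ≤ δ / 2 := by
    intro y hy
    have hs : y 0 ∈ Icc (0 : ℝ) 1 := ⟨hy.1 0, hy.2 0⟩
    have ht : y 1 ∈ Icc (0 : ℝ) 1 := ⟨hy.1 1, hy.2 1⟩
    rw [pb_two ((T.diff1 Λ).differentiable (by norm_num) y) (T.deriv_s hΛ1) (T.deriv_t hΛ1)]
    have hMy : Real.log (T.ρ (y 1)) ≤ M := (le_abs_self _).trans (hM _ ht)
    obtain ⟨h1, h2⟩ := h (y 1) ht (y 0) hs Λ hΛ1 (by linarith)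
    have h2' := h2 _ (JL_pair k (deriv T.b (y 1)))
    set ω := D.Phi v (T.R ![Λ, y 0, y 1]) with hω
    set l' := Λ - Real.log (T.ρ (y 1)) with hl'
    set z := (T.ρ (y 1) : ℂ) * zz Λ (y 0) with hz
    set d := IL k (-(Real.pi * Complex.I) * z) with hd
    have hρ := T.hρ0 (y 1) ht
    have e1 : IL k (((deriv T.ρ (y 1) : ℝ) : ℂ) * zz Λ (y 0)) =
        (-(deriv T.ρ (y 1) / T.ρ (y 1))) • IL k (-z) := by
      rw [← map_smul]
      congr 1
      rw [Complex.real_smul, hz]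
      push_cast
      have : (T.ρ (y 1) : ℂ) ≠ 0 := by exact_mod_cast hρ.ne'
      field_simp
    have e2 : ω ![d, JL k (deriv T.b (y 1)) + IL k (((deriv T.ρ (y 1) : ℝ) : ℂ) * zz Λ (y 0))] =
        ω ![d, JL k (deriv T.b (y 1))] - (deriv T.ρ (y 1) / T.ρ (y 1)) • ω ![d, IL k (-z)] := by
      rw [e1]
      have u1 : ∀ w : C6, ![d, w] = Function.update ![d, 0] 1 w := by
        intro w; funext j; fin_cases j <;> simp
      rw [u1, u1 (JL k (deriv T.b (y 1))), u1 (IL k (-z)), ContinuousAlternatingMap.map_update_add,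
        ContinuousAlternatingMap.map_update_smul, neg_smul, sub_eq_add_neg]
    have e3 : ω ![d, IL k (-z)] = -ω ![IL k (-z), d] := by
      have := ω.toAlternatingMap.map_swap ![IL k (-z), d] (i := 0) (j := 1) (by decide)
      have e : ![IL k (-z), d] ∘ (Equiv.swap (0 : Fin 2) 1) = ![d, IL k (-z)] := by
        funext j; fin_cases j <;> rfl
      rw [e] at this
      exact this
    rw [e2, e3]
    have hl'L : L ≤ l' := by rw [hl']; linarith
    have hfin := hL l' hl'L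
    calc ‖ω ![d, JL k (deriv T.b (y 1))] -
          (deriv T.ρ (y 1) / T.ρ (y 1)) • -ω ![IL k (-z), d]‖
        ≤ ‖ω ![d, JL k (deriv T.b (y 1))]‖ +
          ‖(deriv T.ρ (y 1) / T.ρ (y 1)) • -ω ![IL k (-z), d]‖ := norm_sub_le _ _
      _ ≤ |ε l'| * B + C * |g l'| := by
          refine add_le_add ?_ ?_
          · refine h2'.trans ?_
            exact mul_le_mul (le_abs_self _) (hB _ ht) (norm_nonneg _) (abs_nonneg _)
          · rw [norm_smul, norm_neg]
            exact mul_le_mul (hC _ ht) (h1.trans (le_abs_self _)) (norm_nonneg _) hC0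
      _ ≤ δ / 2 := hfin.le
  have := norm_setIntegral_le_of_norm_le_const (μ := volume) (s := Icc (0 : Fin 2 → ℝ) 1)
    (by exact isCompact_Icc.measure_lt_top) hb
  have hvol : volume.real (Icc (0 : Fin 2 → ℝ) 1) = 1 := by
    rw [Measure.real, Real.volume_Icc_pi]
    simp
  rw [hvol, mul_one] at this
  exact this.trans_lt (half_lt_self hδ)

theorem Tube.theta (T : Tube k) (D : Loc2 V F) {v : V} (hv : D.s k v = v) {Λ : ℝ} (hΛ : 0 < Λ) :
    cubeInt (pb (fun y : Fin 2 → ℝ => T.R ![Λ * y 0, 1, y 1]) (D.Phi v)) =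
      cubeInt (pb (fun y : Fin 2 → ℝ => T.R ![Λ * y 0, 0, y 1]) (D.Phi v)) := by
  have key := H473.cubeInt_equi D k v (Q1 := fun y : Fin 2 → ℝ => T.R ![Λ * y 0, 1, y 1])
    (Q2 := fun y : Fin 2 → ℝ => T.R ![Λ * y 0, 0, y 1])
    (fun y _ => (T.diff2 Λ 1).differentiable (by norm_num) y) ?_ ?_ ?_
  · rw [hv] at key
    exact key
  all_goals
    intro y hy
    have h0 : 0 ≤ Λ * y 0 := mul_nonneg hΛ.le (hy 0 (mem_univ _)).1.le
    have h1 : y 1 ∈ Icc (0 : ℝ) 1 := ⟨(hy 1 (mem_univ _)).1.le, (hy 1 (mem_univ _)).2.le⟩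
  · exact T.mem (x := ![Λ * y 0, 1, y 1]) h0 (by simp) h1
  · show (pr k (T.b (y 1)) (T.b (y 1) k.castSucc) (T.S ![Λ * y 0, 1, y 1]) k.succ).re <
      (pr k (T.b (y 1)) (T.b (y 1) k.castSucc) (T.S ![Λ * y 0, 1, y 1]) k.castSucc).re
    rw [T.hflip _ _ h0 h1]
    have := T.hpos _ _ h0 h1
    simp only [pr, (castSucc_ne_succ k).symm, if_true, if_false, Complex.add_re, Complex.sub_re,
      Complex.neg_re]
    linarith
  · show pr k (T.b (y 1)) (T.b (y 1) k.castSucc) (T.S ![Λ * y 0, 0, y 1]) =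
      swL k (pr k (T.b (y 1)) (T.b (y 1) k.castSucc) (T.S ![Λ * y 0, 1, y 1]))
    rw [swL_pr, T.hflip _ _ h0 h1, neg_neg]

/-- **the tube theorem** -/
theorem tube_prop {D : Loc2 V F} (hN : Neg D) : TubeProp D := by
  intro k v hv T
  refine move (W := XX) isOpen_XX (D.smooth v) (D.closed v) (U := T.R ⁻¹' XX)
    (isOpen_XX.preimage T.contDiff.continuous) (fun x h0 h1 h2 => T.mem h0 h1 h2)
    T.contDiff.contDiffOn (fun x hx => hx) ?_ (T.tendsto_far hN hv)
    (T.tendsto_end hN hv (by simp)) (T.tendsto_end hN hv (by simp))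
  filter_upwards [eventually_gt_atTop 0] with Λ hΛ
  exact T.theta D hv hΛ

end Vale.Agent.P273.H828
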