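import Vale.Agent.P273.H879.OneNode
import Vale.Agent.P273.H828.Tube

/-!
# P273, NEG: the base part of the one-node chart
-/

noncomputable section

namespace Vale.Agent.P273.H828

open Set MeasureTheory Filter Topology
open Vale.Agent.P273.H681 Vale.Agent.P273.H95 Vale.Agent.P273.H879

variable {R : Region1} {m : Fin (R.n + 1)}

theorem toE_fst (k : Fin 5) (c : ℝ) (p : Co1 R m) : (toE k c p).1 =
    pr k (fun j => p.2.2.2.2 (Sum.inr (oj k j).succ)) (p.2.2.2.2 (Sum.inr 0)) (zh c p) := rfl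

/-- the logarithm of `ε / c^2` as a linear map -/
def lam (R : Region1) (m : Fin (R.n + 1)) : Co1 R m →L[ℝ] ℂ := (wr R m).lS ((wr R m).neck ())

theorem lam_apply (p : Co1 R m) :
    lam R m p = -(p.2.2.1 () : ℂ) + (p.2.2.2.1 () : ℂ) * Complex.I := (wr R m).lS_neck p ()

theorem zh_eq (c : ℝ) (p : Co1 R m) : zh c p = c * Complex.exp (lam R m p / 2) := by
  rw [lam_apply]; rfl

theorem hasFDerivAt_zh (c : ℝ) (p : Co1 R m) :
    HasFDerivAt (zh c : Co1 R m → ℂ) ((zh c p / 2) • lam R m) p := by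
  have h1 : HasFDerivAt (fun p : Co1 R m => (1 / 2 : ℂ) * lam R m p) ((1 / 2 : ℂ) • lam R m) p :=
    (lam R m).hasFDerivAt.const_mul (1 / 2)
  have h2 := (h1.cexp.const_mul (c : ℂ))
  have e : (zh c : Co1 R m → ℂ) = fun p => (c : ℂ) * Complex.exp ((1 / 2 : ℂ) * lam R m p) := by
    funext p
    rw [zh_eq]
    congr 2
    ring
  have e2 := congrFun e p
  rw [e]
  refine h2.congr_fderiv ?_
  rw [smul_smul, smul_smul]
  congr 1
  ring

/-- the derivative of the base part -/
def dbase (k : Fin 5) (c : ℝ) (p w : Co1 R m) : C6 :=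
  pr k (fun j => w.2.2.2.2 (Sum.inr (oj k j).succ)) (w.2.2.2.2 (Sum.inr 0))
    (zh c p * (-(w.2.2.1 () : ℂ) + (w.2.2.2.1 () : ℂ) * Complex.I) / 2)

/-- the base coordinates -/
def prj (a : Fin 5) : Co1 R m →L[ℝ] ℂ :=
  (ContinuousLinearMap.proj (Sum.inr a : R.Cm ⊕ Fin 5)).comp (wr R m).sc

/-- **the base part of the derivative of `toE`** -/
theorem base_of_hasFDerivAt {k : Fin 5} {c : ℝ} {p : Co1 R m} {A : Co1 R m →L[ℝ] E}
    (h : HasFDerivAt (toE k c) A p) (w : Co1 R m) : (A w).1 = dbase k c p w := by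
  have h1 : HasFDerivAt (fun p : Co1 R m => (toE k c p).1)
      ((ContinuousLinearMap.fst ℝ C6 (L → ℂ)).comp A) p :=
    (ContinuousLinearMap.fst ℝ C6 (L → ℂ)).hasFDerivAt.comp p h
  funext j
  have h2 : HasFDerivAt (fun p : Co1 R m => (toE k c p).1 j)
      ((ContinuousLinearMap.proj j).comp ((ContinuousLinearMap.fst ℝ C6 (L → ℂ)).comp A)) p :=
    (ContinuousLinearMap.proj (R := ℝ) (φ := fun _ : Fin 6 => ℂ) j).hasFDerivAt.comp p h1
  have key : (A w).1 j = ((ContinuousLinearMap.proj j).comp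
    ((ContinuousLinearMap.fst ℝ C6 (L → ℂ)).comp A)) w := rfl
  rw [key]
  have hz := hasFDerivAt_zh c p
  have hc : HasFDerivAt (fun p : Co1 R m => p.2.2.2.2 (Sum.inr 0)) (prj (m := m) 0) p :=
    (prj (R := R) (m := m) 0).hasFDerivAt
  by_cases hj1 : j = k.castSucc
  · have e : (fun p : Co1 R m => (toE k c p).1 j) = fun p => p.2.2.2.2 (Sum.inr 0) - zh c p := by
      funext p
      rw [toE_fst]
      simp [pr, hj1]
    rw [e] at h2
    rw [h2.unique (hc.sub hz)]
    simp only [dbase, pr, hj1, if_true]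
    show w.2.2.2.2 (Sum.inr 0) - (zh c p / 2) * lam R m w = _
    rw [lam_apply]
    ring
  · by_cases hj2 : j = k.succ
    · have e : (fun p : Co1 R m => (toE k c p).1 j) = fun p => p.2.2.2.2 (Sum.inr 0) + zh c p := by
        funext p
        rw [toE_fst]
        simp [pr, hj2, (castSucc_ne_succ k).symm]
      rw [e] at h2
      rw [h2.unique (hc.add hz)]
      simp only [dbase, pr, hj2, (castSucc_ne_succ k).symm, if_true, if_false]
      show w.2.2.2.2 (Sum.inr 0) + (zh c p / 2) * lam R m w = _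
      rw [lam_apply]
      ring
    · have e : (fun p : Co1 R m => (toE k c p).1 j) =
          fun p => p.2.2.2.2 (Sum.inr (oj k j).succ) := by
        funext p
        rw [toE_fst]
        simp [pr, hj1, hj2]
      rw [e] at h2
      rw [h2.unique (prj (R := R) (m := m) (oj k j).succ).hasFDerivAt]
      simp only [dbase, pr, hj1, hj2, if_false]
      rfl

theorem dbase_u (k : Fin 5) (c : ℝ) (p : Co1 R m) (f : (wr R m).Fr) :
    dbase k c p ((wr R m).vec (.u f)) = 0 := by
  funext j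
  simp [dbase, pr, H732.Reg.vec]

theorem dbase_ph (k : Fin 5) (c : ℝ) (p : Co1 R m) (f : (wr R m).Fr) :
    dbase k c p ((wr R m).vec (.ph f)) = 0 := by
  funext j
  simp [dbase, pr, H732.Reg.vec]

theorem dbase_re_inl (k : Fin 5) (c : ℝ) (p : Co1 R m) (j : R.Cm) :
    dbase k c p ((wr R m).vec (.re (Sum.inl j))) = 0 := by
  funext j
  simp [dbase, pr, H732.Reg.vec]

theorem dbase_im_inl (k : Fin 5) (c : ℝ) (p : Co1 R m) (j : R.Cm) :
    dbase k c p ((wr R m).vec (.im (Sum.inl j))) = 0 := by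
  funext j
  simp [dbase, pr, H732.Reg.vec]

theorem dbase_y (k : Fin 5) (c : ℝ) (p : Co1 R m) :
    dbase k c p ((wr R m).vec (.y ())) = pr k 0 0 (-(zh c p) / 2) := by
  funext j
  simp [dbase, pr, H732.Reg.vec]

theorem dbase_al (k : Fin 5) (c : ℝ) (p : Co1 R m) :
    dbase k c p ((wr R m).vec (.al ())) = pr k 0 0 (zh c p * Complex.I / 2) := by
  funext j
  simp [dbase, pr, H732.Reg.vec]

/-- the point of the base -/
theorem toE_fam {k : Fin 5} {c : ℝ} (hc : 0 < c) {b : C6} {l s : ℝ} {p : Co1 R m}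
    (hy : p.2.2.1 () = 2 * (l + Real.log c)) (ha : p.2.2.2.1 () = -(2 * Real.pi * s))
    (h0 : p.2.2.2.2 (Sum.inr 0) = b k.castSucc)
    (h1 : ∀ j, j ≠ k.castSucc → j ≠ k.succ → p.2.2.2.2 (Sum.inr (oj k j).succ) = b j) :
    zh c p = zz l s ∧ (toE k c p).1 = fam k b l s := by
  have hz : zh c p = zz l s := by
    rw [zh_eq, lam_apply, hy, ha]
    unfold zz
    have : (c : ℂ) = Complex.exp (Real.log c : ℂ) := by
      rw [← Complex.ofReal_exp, Real.exp_log hc]
    nth_rewrite 1 [this]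
    rw [← Complex.exp_add]
    congr 1
    push_cast
    ring
  refine ⟨hz, ?_⟩
  rw [toE_fst, hz]
  funext j
  simp only [fam, pr]
  split_ifs with h2 h3
  · rw [h0]
  · rw [h0]
  · exact h1 j h2 h3

end Vale.Agent.P273.H828
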