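import Vale.Agent.P273.H828.TubeDefs

/-!
# P273, row ANN / NEG: small pairs lie in `XX`, uniformly on compact sets
-/

noncomputable section

namespace Vale.Agent.P273.H828

open Set MeasureTheory Filter Topology
open Vale.Agent.P273.H401 Vale.Agent.P273.H681

theorem norm_zz (l s : ℝ) : ‖zz l s‖ = Real.exp (-l) := by
  unfold zz
  rw [Complex.norm_exp]
  simp

/-- the conditions of `XX` except the one of the pair -/
def XP (k : Fin 5) : Set C6 := {b | ∀ i j, i < j → (i ≠ k.castSucc ∨ j ≠ k.succ) →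
  (b i).re = (b j).re → (b j).im < (b i).im}

theorem isOpen_XP (k : Fin 5) : IsOpen (XP k) := by
  have : XP k = ⋂ i : Fin 6, ⋂ j : Fin 6, ⋂ (_ : i < j), ⋂ (_ : i ≠ k.castSucc ∨ j ≠ k.succ),
      {b : C6 | (b i).re = (b j).re → (b j).im < (b i).im} := by
    ext b; simp [XP]
  rw [this]
  refine isOpen_iInter_of_finite fun i => isOpen_iInter_of_finite fun j =>
    isOpen_iInter_of_finite fun _ => isOpen_iInter_of_finite fun _ => ?_
  have h : {b : C6 | (b i).re = (b j).re → (b j).im < (b i).im} =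
      ({b : C6 | (b i).re = (b j).re} ∩ {b : C6 | (b i).im ≤ (b j).im})ᶜ := by
    ext b
    simp only [Set.mem_ofPred_eq, mem_compl_iff, mem_inter_iff, not_and, not_le]
  rw [h]
  refine (IsClosed.inter ?_ ?_).isOpen_compl
  · exact isClosed_eq (by fun_prop) (by fun_prop)
  · exact isClosed_le (by fun_prop) (by fun_prop)

theorem XD_subset_XP (k : Fin 5) : XD k ⊆ XP k := fun _ hb => hb.2

/-- `XX` = the other conditions and the condition of the pair -/
theorem mem_XX_of {k : Fin 5} {b : C6} (h : b ∈ XP k)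
    (hp : (b k.castSucc).re = (b k.succ).re → (b k.succ).im < (b k.castSucc).im) : b ∈ XX := by
  intro i j hij hre
  by_cases h1 : i = k.castSucc
  · by_cases h2 : j = k.succ
    · subst h1 h2; exact hp hre
    · exact h i j hij (Or.inr h2) hre
  · exact h i j hij (Or.inl h1) hre

/-- **small pairs lie in `XX`**, uniformly on compact sets -/
theorem fam_mem (k : Fin 5) {K : Set C6} (hK : K ⊆ XD k) (hc : IsCompact K) :
    ∃ δ > 0, ∀ b ∈ K, ∀ d : ℂ, ‖d‖ < δ → (d.re = 0 → d.im < 0) →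
      pr k b (b k.castSucc) d ∈ XX := by
  have hcont : Continuous fun p : C6 × ℂ => JL k p.1 + IL k p.2 := by fun_prop
  have hW : IsOpen ((fun p : C6 × ℂ => JL k p.1 + IL k p.2) ⁻¹' XP k) :=
    (isOpen_XP k).preimage hcont
  have h0 : K ×ˢ ({0} : Set ℂ) ⊆ (fun p : C6 × ℂ => JL k p.1 + IL k p.2) ⁻¹' XP k := by
    rintro ⟨b, d⟩ ⟨hb, hd⟩
    rw [mem_singleton_iff] at hd
    simp only at hd hb
    subst hd
    show JL k b + IL k 0 ∈ XP k
    rw [map_zero, add_zero]
    have : JL k b = b := by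
      funext j
      simp only [JL, ContinuousLinearMap.coe_pi', ContinuousLinearMap.proj_apply]
      by_cases h : j = k.succ
      · rw [if_pos h, h]; exact (hK hb).1
      · rw [if_neg h]
    rw [this]
    exact XD_subset_XP k (hK hb)
  obtain ⟨u, v, _, hv, hu1, hv1, huv⟩ := generalized_tube_lemma hc (isCompact_singleton (x := (0:ℂ)))
    hW h0
  obtain ⟨δ, hδ, hball⟩ := Metric.isOpen_iff.1 hv 0 (hv1 rfl)
  refine ⟨δ, hδ, fun b hb d hd hd' => ?_⟩
  have hmem : pr k b (b k.castSucc) d ∈ XP k := by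
    rw [pr_eq]
    exact huv (show (b, d) ∈ u ×ˢ v from ⟨hu1 hb, hball (by simpa using hd)⟩)
  refine mem_XX_of hmem ?_
  have hne := castSucc_ne_succ k
  simp only [pr, hne.symm, if_true, if_false, Complex.add_re, Complex.sub_re, Complex.add_im,
    Complex.sub_im]
  intro h
  have := hd' (by linarith)
  linarith

/-- the same for the family `fam` -/
theorem fam_mem' (k : Fin 5) {K : Set C6} (hK : K ⊆ XD k) (hc : IsCompact K) :
    ∃ l₀ : ℝ, 0 ≤ l₀ ∧ ∀ b ∈ K, ∀ l ≥ l₀, ∀ s ∈ Icc (0 : ℝ) 1, fam k b l s ∈ XX := by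
  obtain ⟨δ, hδ, h⟩ := fam_mem k hK hc
  refine ⟨max 0 (1 - Real.log δ), le_max_left _ _, fun b hb l hl s hs => ?_⟩
  refine h b hb _ ?_ ?_
  · rw [norm_zz]
    have h1 : 1 - Real.log δ ≤ l := (le_max_right _ _).trans hl
    calc Real.exp (-l) < Real.exp (Real.log δ) := Real.exp_lt_exp.2 (by linarith)
      _ = δ := Real.exp_log hδ
  · have := zz_neg (c := 1) (l := l) one_pos hs
    simpa using this

end Vale.Agent.P273.H828
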