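import Vale.Agent.P273.H828.Dir1

/-!
# P273, ASY1, item (D): inequalities of the direction table
-/

noncomputable section

namespace Vale.Agent.P273.H828

open Set MeasureTheory Filter Topology
open Vale.Agent.P273.H681 Vale.Agent.P273.H95 Vale.Agent.P273.H879

variable {R : Region1} {m : Fin (R.n + 1)} {p : Co1 R m}

/-! ### differences (for the collision cut-offs) -/

theorem Xj_ratio {c : ℝ} {i j : L} (hi : R.nk i = true) (hj : R.nk j = true)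
    (hij : R.rk i ≤ R.rk j) (p : Co1 R m) :
    Xj c p j = Xj c p i * Complex.exp (lB R m (R.rk i) (R.rk j) p) := by
  rw [Xj_eq hi, Xj_eq hj, lX_succ hij, Complex.exp_add, mul_assoc]

theorem Yj_ratio {c : ℝ} {i j : L} (hi : R.nk i = true) (hj : R.nk j = true)
    (hij : R.rk i ≤ R.rk j) (p : Co1 R m) :
    Yj c p i = Yj c p j * Complex.exp (lB R m (R.rk i) (R.rk j) p) := by
  rw [Yj_eq hi, Yj_eq hj, lY_succ hij, Complex.exp_add, mul_assoc]

theorem norm_exp_lB (i i' : ℕ) (p : Co1 R m) : ‖Complex.exp (lB R m i i' p)‖ =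
    Real.exp (-∑ g ∈ betG R i i', (wr R m).ug p g) := by
  rw [Complex.norm_exp]
  unfold lB
  rw [H732.Reg.lS_re]

theorem norm_exp_lB_le_one (hp : (wr R m).Inr p) (hy : 0 ≤ p.2.2.1 ()) (i i' : ℕ) :
    ‖Complex.exp (lB R m i i' p)‖ ≤ 1 := by
  rw [norm_exp_lB]
  exact Real.exp_le_one_iff.2 (neg_nonpos.2 (Finset.sum_nonneg fun g _ => ug_nn hp hy g))

theorem lB_u (i i' : ℕ) (f : (wr R m).Fr) : lB R m i i' ((wr R m).vec (.u f)) =
    (if i < (m : ℕ) ∧ (m : ℕ) ≤ i' then 1 else 0) -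
      (if i < (f.1.2 : ℕ) ∧ (f.1.2 : ℕ) ≤ i' then 1 else 0) := by
  unfold lB
  rw [H732.Reg.lS_vec_u]
  simp only [mem_betG]
  rfl

theorem lB_ph (i i' : ℕ) (f : (wr R m).Fr) : lB R m i i' ((wr R m).vec (.ph f)) =
    ((if i < (f.1.2 : ℕ) ∧ (f.1.2 : ℕ) ≤ i' then 1 else 0) -
      (if i < (m : ℕ) ∧ (m : ℕ) ≤ i' then 1 else 0)) * Complex.I := by
  unfold lB
  rw [H732.Reg.lS_vec_ph]
  simp only [mem_betG]
  rfl

theorem lB_al (i i' : ℕ) : lB R m i i' ((wr R m).vec (.al ())) =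
    (if i < (m : ℕ) ∧ (m : ℕ) ≤ i' then 1 else 0) * Complex.I := by
  unfold lB
  rw [H732.Reg.lS_vec_al]
  simp only [mem_betG]
  rfl

theorem lB_re (i i' : ℕ) (a : R.Cm ⊕ Fin 5) : lB R m i i' ((wr R m).vec (.re a)) = 0 :=
  (wr R m).lS_vec_re _ _

theorem lB_im (i i' : ℕ) (a : R.Cm ⊕ Fin 5) : lB R m i i' ((wr R m).vec (.im a)) = 0 :=
  (wr R m).lS_vec_im _ _

/-- Euler direction: `lB = (1/y) log |X_j / X_i|` -/
theorem lB_eul (i i' : ℕ) (hy : p.2.2.1 () ≠ 0) : lB R m i i' ((wr R m).eul p ()) =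
    (((p.2.2.1 ())⁻¹ * Real.log ‖Complex.exp (lB R m i i' p)‖ : ℝ) : ℂ) := by
  rw [norm_exp_lB, Real.log_exp]
  unfold lB
  rw [H732.Reg.lS_eul _ (sub_neck _) p hy, ← Complex.ofReal_neg]
  congr 1
  ring

theorem norm_lB_le (i i' : ℕ) (d : Dir1 R m) : ‖lB R m i i' ((wr R m).vec d)‖ ≤ 1 :=
  (wr R m).norm_lS_vec_le _ d

theorem norm_lB_eul_le (hp : (wr R m).Inr p) (hy : 0 < p.2.2.1 ()) (i i' : ℕ) :
    ‖lB R m i i' ((wr R m).eul p ())‖ ≤ 1 :=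
  (wr R m).norm_lS_eul_le hp (ul_nn hp hy.le) (sub_neck _) hy

/-- on the direction of a free gap: if the ratio of two marks moves then it is small -/
theorem moved_lB_u (hp : (wr R m).Inr p) (hy : 0 ≤ p.2.2.1 ()) {i i' : ℕ} {f : (wr R m).Fr}
    (h : lB R m i i' ((wr R m).vec (.u f)) ≠ 0) :
    ‖Complex.exp (lB R m i i' p)‖ ≤ Real.exp (-p.1 f) := by
  rw [norm_exp_lB]
  refine Real.exp_le_exp.2 (neg_le_neg (u_le_sum hp hy f ?_))
  simp only [mem_betG, last_val]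
  by_contra hcon
  push Not at hcon
  apply h
  rw [lB_u, if_neg (fun h3 => absurd h3.2 (not_le.2 (hcon.2 h3.1))),
    if_neg (fun h3 => absurd h3.2 (not_le.2 (hcon.1 h3.1))), sub_self]

theorem moved_lB_ph (hp : (wr R m).Inr p) (hy : 0 ≤ p.2.2.1 ()) {i i' : ℕ} {f : (wr R m).Fr}
    (h : lB R m i i' ((wr R m).vec (.ph f)) ≠ 0) :
    ‖Complex.exp (lB R m i i' p)‖ ≤ Real.exp (-p.1 f) := by
  rw [norm_exp_lB]
  refine Real.exp_le_exp.2 (neg_le_neg (u_le_sum hp hy f ?_))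
  simp only [mem_betG, last_val]
  by_contra hcon
  push Not at hcon
  apply h
  rw [lB_ph, if_neg (fun h3 => absurd h3.2 (not_le.2 (hcon.1 h3.1))),
    if_neg (fun h3 => absurd h3.2 (not_le.2 (hcon.2 h3.1))), sub_self, zero_mul]

theorem moved_lB_al (hp : (wr R m).Inr p) (hy : 0 ≤ p.2.2.1 ()) {i i' : ℕ}
    (h : lB R m i i' ((wr R m).vec (.al ())) ≠ 0) :
    ‖Complex.exp (lB R m i i' p)‖ ≤ Real.exp (-(wr R m).ul p ()) := by
  rw [norm_exp_lB]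
  refine Real.exp_le_exp.2 (neg_le_neg (ul_le_sum hp hy ?_))
  simp only [mem_betG, last_val]
  by_contra hcon
  apply h
  rw [lB_al, if_neg hcon, zero_mul]

theorem moved_al (hp : (wr R m).Inr p) (hy : 0 ≤ p.2.2.1 ()) {c : ℝ} (hc : 0 < c) {j : L}
    (hj : R.nk j = true) :
    (lX R m (R.rk j) ((wr R m).vec (.al ())) ≠ 0 → ‖Xj c p j‖ ≤ c * Real.exp (-(wr R m).ul p ())) ∧
    (lY R m (R.rk j) ((wr R m).vec (.al ())) ≠ 0 →
      ‖Yj c p j‖ ≤ c * Real.exp (-(wr R m).ul p ())) := by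
  constructor
  · intro h
    rw [norm_Xj hc hj]
    refine mul_le_mul_of_nonneg_left (Real.exp_le_exp.2 (neg_le_neg (ul_le_sum hp hy ?_))) hc.le
    simp only [mem_befG, last_val]
    by_contra hcon
    apply h
    rw [lX_al, if_neg hcon, zero_mul]
  · intro h
    rw [norm_Yj hc hj]
    refine mul_le_mul_of_nonneg_left (Real.exp_le_exp.2 (neg_le_neg (ul_le_sum hp hy ?_))) hc.le
    simp only [mem_aftG, last_val]
    by_contra hcon
    apply h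
    rw [lY_al, if_neg hcon, zero_mul]

/-! ### costs -/

theorem sqrt_mul_sqrt_inv {y : ℝ} (hy : 0 < y) : Real.sqrt y * Real.sqrt y⁻¹ = 1 := by
  rw [← Real.sqrt_mul hy.le, mul_inv_cancel₀ hy.ne', Real.sqrt_one]

theorem inv_sqrt_eq (y : ℝ) : (Real.sqrt y)⁻¹ = Real.sqrt y⁻¹ := (Real.sqrt_inv y).symm

theorem sqrt_inv_le_cst_u (f : (wr R m).Fr) : Real.sqrt (p.2.2.1 ())⁻¹ ≤ cst p (.u f) :=
  Real.sqrt_le_sqrt (le_max_right _ _)

theorem sqrt_inv_le_cst_ph (f : (wr R m).Fr) : Real.sqrt (p.2.2.1 ())⁻¹ ≤ cst p (.ph f) :=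
  Real.sqrt_le_sqrt (le_max_right _ _)

theorem exp_le_cst_u (hp : (wr R m).Inr p) (f : (wr R m).Fr) :
    Real.exp (-p.1 f) ≤ cst p (.u f) := H401.Ch1.exp_le_sqrt (hp.1 f)

theorem exp_le_cst_ph (hp : (wr R m).Inr p) (f : (wr R m).Fr) :
    Real.exp (-p.1 f) ≤ cst p (.ph f) := H401.Ch1.exp_le_sqrt (hp.1 f)

theorem inv_le_sqrt' {y : ℝ} (hy : 1 ≤ y) : y⁻¹ ≤ Real.sqrt y⁻¹ := H401.Ch1.inv_le_sqrt_inv hy

/-- a direction is not the Euler direction -/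
def NE : Dir1 R m → Prop
  | .y _ => False
  | _ => True

/-- the vector of a direction that is not the Euler direction -/
theorem evec_ne {d : Dir1 R m} (h : NE d) : evec p d = (wr R m).vec d := by
  cases d <;> first | rfl | exact absurd h (by simp [NE])

/-- the costs: at least `1 / sqrt y` except in the Euler direction -/
theorem sqrt_inv_le_cst (hy : 1 ≤ p.2.2.1 ()) {d : Dir1 R m} (h : NE d) :
    Real.sqrt (p.2.2.1 ())⁻¹ ≤ cst p d := by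
  have h1 : Real.sqrt (p.2.2.1 ())⁻¹ ≤ 1 := by
    exact (Real.sqrt_le_sqrt (inv_le_one_of_one_le₀ hy)).trans_eq Real.sqrt_one
  cases d with
  | u f => exact sqrt_inv_le_cst_u f
  | ph f => exact sqrt_inv_le_cst_ph f
  | y k => exact absurd h (by simp [NE])
  | al k => exact le_rfl
  | re a => exact h1
  | im a => exact h1

theorem one_le_sqrt_mul_cst (hy : 1 ≤ p.2.2.1 ()) {d : Dir1 R m} (h : NE d) :
    1 ≤ Real.sqrt (p.2.2.1 ()) * cst p d := by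
  rw [← sqrt_mul_sqrt_inv (lt_of_lt_of_le one_pos hy)]
  exact mul_le_mul_of_nonneg_left (sqrt_inv_le_cst hy h) (Real.sqrt_nonneg _)

theorem norm_qb_evec_le_one (k : Fin 5) (d : Dir1 R m) : ‖qb k (evec p d)‖ ≤ 1 := by
  cases d with
  | u f => show ‖qb k ((wr R m).vec (.u f))‖ ≤ 1; rw [qb_u]; simp
  | ph f => show ‖qb k ((wr R m).vec (.ph f))‖ ≤ 1; rw [qb_ph]; simp
  | y u => show ‖qb k ((wr R m).eul p ())‖ ≤ 1; rw [qb_y]; simp
  | al u => show ‖qb k ((wr R m).vec (.al ()))‖ ≤ 1; rw [qb_al]; simp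
  | re a => exact norm_qb_le k _ fun b => norm_single_le _ _ _ (by simp)
  | im a => exact norm_qb_le k _ fun b => norm_single_le _ _ _ (by simp)

theorem norm_qb_evec_le (k : Fin 5) (hy : 1 ≤ p.2.2.1 ()) (d : Dir1 R m) :
    ‖qb k (evec p d)‖ ≤ cst p d := by
  have h0 := H401.Ch1.cst_nonneg (p := p) (by linarith) d
  cases d with
  | u f => show ‖qb k ((wr R m).vec (.u f))‖ ≤ _; rw [qb_u]; simpa using h0
  | ph f => show ‖qb k ((wr R m).vec (.ph f))‖ ≤ _; rw [qb_ph]; simpa using h0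
  | y u => show ‖qb k ((wr R m).eul p ())‖ ≤ _; rw [qb_y]; simpa using h0
  | al u => show ‖qb k ((wr R m).vec (.al ()))‖ ≤ _; rw [qb_al]; simpa using h0
  | re a => exact norm_qb_evec_le_one k _
  | im a => exact norm_qb_evec_le_one k _

theorem norm_lX_evec_le (hp : (wr R m).Inr p) (hy : 0 < p.2.2.1 ()) (i : ℕ) (d : Dir1 R m) :
    ‖lX R m i (evec p d)‖ ≤ 1 := by
  by_cases h : NE d
  · rw [evec_ne h]
    exact norm_lX_le i d
  · cases d with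
    | y u => exact norm_lX_eul_le hp hy i
    | _ => exact absurd (by simp [NE]) h

theorem norm_lY_evec_le (hp : (wr R m).Inr p) (hy : 0 < p.2.2.1 ()) (i : ℕ) (d : Dir1 R m) :
    ‖lY R m i (evec p d)‖ ≤ 1 := by
  by_cases h : NE d
  · rw [evec_ne h]
    exact norm_lY_le i d
  · cases d with
    | y u => exact norm_lY_eul_le hp hy i
    | _ => exact absurd (by simp [NE]) h

/-- **neck, type T0** -/
theorem neck_T0 (hp : (wr R m).Inr p) (hy : 1 ≤ p.2.2.1 ()) (k : Fin 5) (i : ℕ) {d : Dir1 R m}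
    (hd : NE d) : ‖qb k (evec p d)‖ + ‖lX R m i (evec p d)‖ + ‖lY R m i (evec p d)‖ ≤
      3 * (Real.sqrt (p.2.2.1 ()) * cst p d) := by
  have h1 := norm_qb_evec_le_one (p := p) k d
  have h2 := norm_lX_evec_le hp (by linarith) i d
  have h3 := norm_lY_evec_le hp (by linarith) i d
  have h4 := one_le_sqrt_mul_cst hy hd
  linarith

/-- **neck, type T2** -/
theorem neck_T2 (hp : (wr R m).Inr p) (hy : 1 ≤ p.2.2.1 ()) (k : Fin 5) (i : ℕ) {d : Dir1 R m}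
    (hd : NE d) : (p.2.2.1 ())⁻¹ *
      (‖qb k (evec p d)‖ + ‖lX R m i (evec p d)‖ + ‖lY R m i (evec p d)‖) ≤
      3 * ((Real.sqrt (p.2.2.1 ()))⁻¹ * cst p d) := by
  have h0 := neck_T0 hp hy k i hd
  have hy0 : 0 < p.2.2.1 () := by linarith
  calc (p.2.2.1 ())⁻¹ * (‖qb k (evec p d)‖ + ‖lX R m i (evec p d)‖ + ‖lY R m i (evec p d)‖)
      ≤ (p.2.2.1 ())⁻¹ * (3 * (Real.sqrt (p.2.2.1 ()) * cst p d)) :=
        mul_le_mul_of_nonneg_left h0 (inv_pos.2 hy0).le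
    _ = 3 * ((Real.sqrt (p.2.2.1 ()))⁻¹ * cst p d) := by
        have hs : Real.sqrt (p.2.2.1 ()) ≠ 0 := (Real.sqrt_pos.2 hy0).ne'
        have e : (p.2.2.1 ())⁻¹ * Real.sqrt (p.2.2.1 ()) = (Real.sqrt (p.2.2.1 ()))⁻¹ := by
          refine eq_inv_of_mul_eq_one_left ?_
          rw [mul_assoc, Real.mul_self_sqrt hy0.le, inv_mul_cancel₀ hy0.ne']
        rw [← e]; ring

/-- the Euler direction, types T0 and T2 -/
theorem eul_T0 (hy : 1 ≤ p.2.2.1 ()) :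
    (p.2.2.1 ())⁻¹ ≤ Real.sqrt (p.2.2.1 ()) * cst p (.y ()) := by
  show (p.2.2.1 ())⁻¹ ≤ Real.sqrt (p.2.2.1 ()) * (p.2.2.1 ())⁻¹
  have h : 1 ≤ Real.sqrt (p.2.2.1 ()) := by rw [Real.one_le_sqrt]; exact hy
  exact le_mul_of_one_le_left (inv_nonneg.2 (by linarith)) h

theorem eul_T2 (hy : 1 ≤ p.2.2.1 ()) :
    ((p.2.2.1 ())⁻¹) ^ 2 ≤ (Real.sqrt (p.2.2.1 ()))⁻¹ * cst p (.y ()) := by
  show ((p.2.2.1 ())⁻¹) ^ 2 ≤ (Real.sqrt (p.2.2.1 ()))⁻¹ * (p.2.2.1 ())⁻¹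
  rw [sq, inv_sqrt_eq]
  exact mul_le_mul_of_nonneg_right (inv_le_sqrt' hy) (inv_nonneg.2 (by linarith))

/-- the product of a size and its logarithmic derivative, for one coordinate -/
theorem coord_T1 {c y x l : ℝ} {q : ℝ} (hc : 0 ≤ c) (hx : l ≠ 0 → x ≤ c * q) (hl0 : 0 ≤ l)
    (hl : l ≤ 1) (hq : 0 ≤ q) (hy : y⁻¹ ≤ q) (hyn : 0 ≤ y⁻¹) :
    (x + y⁻¹) * l ≤ (c + 1) * q := by
  by_cases h : l = 0
  · rw [h, mul_zero]; positivity
  · have h1 := hx h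
    have h2 : x + y⁻¹ ≤ (c + 1) * q := by linarith
    by_cases h3 : 0 ≤ x + y⁻¹
    · exact (mul_le_of_le_one_right h3 hl).trans h2
    · have : (x + y⁻¹) * l ≤ 0 := mul_nonpos_of_nonpos_of_nonneg (not_le.1 h3).le hl0
      exact this.trans (by positivity)

end Vale.Agent.P273.H828
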