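import Vale.Agent.P273.H730.One1
import Vale.Agent.P273.H401.Ch1
import Vale.Agent.P273.H828.NegBase

/-!
# P273, ASY1, item (D): the table of directions of the one-node chart

`qb k p` = merged configuration of the point `p` (linear in `p`: `qb k w` is also the direction of
the merged configuration of a vector `w`), `Xj`, `Yj` = neck coordinates of a mark, `lX i`, `lY i` =
their logarithmic derivatives (`i` = rank of the mark), `lB i i'` = logarithm of the gaps between two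
marks.
-/

noncomputable section

namespace Vale.Agent.P273.H828

open Set MeasureTheory Filter Topology
open Vale.Agent.P273.H681 Vale.Agent.P273.H95 Vale.Agent.P273.H879

/-- the merged configuration -/
def qb {R : Region1} {m : Fin (R.n + 1)} (k : Fin 5) (p : Co1 R m) : C6 :=
  pr k (fun j => p.2.2.2.2 (Sum.inr (oj k j).succ)) (p.2.2.2.2 (Sum.inr 0)) 0

section Gaps

variable (R : Region1)

/-- the gaps before the mark of rank `i` -/
def befG (i : ℕ) : Finset (Σ _ : Unit, Fin (R.n + 1)) :=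
  Finset.univ.filter fun g => (g.2 : ℕ) ≤ i

/-- the gaps after the mark of rank `i` -/
def aftG (i : ℕ) : Finset (Σ _ : Unit, Fin (R.n + 1)) :=
  Finset.univ.filter fun g => i < (g.2 : ℕ)

/-- the gaps between the marks of rank `i` and `i'` -/
def betG (i i' : ℕ) : Finset (Σ _ : Unit, Fin (R.n + 1)) :=
  Finset.univ.filter fun g => i < (g.2 : ℕ) ∧ (g.2 : ℕ) ≤ i'

variable {R}

@[simp] theorem mem_befG {i : ℕ} {g : Σ _ : Unit, Fin (R.n + 1)} :
    g ∈ befG R i ↔ (g.2 : ℕ) ≤ i := by simp [befG]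

@[simp] theorem mem_aftG {i : ℕ} {g : Σ _ : Unit, Fin (R.n + 1)} :
    g ∈ aftG R i ↔ i < (g.2 : ℕ) := by simp [aftG]

@[simp] theorem mem_betG {i i' : ℕ} {g : Σ _ : Unit, Fin (R.n + 1)} :
    g ∈ betG R i i' ↔ i < (g.2 : ℕ) ∧ (g.2 : ℕ) ≤ i' := by simp [betG]

end Gaps

variable {R : Region1} {m : Fin (R.n + 1)}

/-- logarithmic derivative of `X` -/
def lX (R : Region1) (m : Fin (R.n + 1)) (i : ℕ) : Co1 R m →L[ℝ] ℂ := (wr R m).lS (befG R i)

/-- logarithmic derivative of `Y` -/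
def lY (R : Region1) (m : Fin (R.n + 1)) (i : ℕ) : Co1 R m →L[ℝ] ℂ := (wr R m).lS (aftG R i)

/-- logarithm of the product of the gaps between two marks -/
def lB (R : Region1) (m : Fin (R.n + 1)) (i i' : ℕ) : Co1 R m →L[ℝ] ℂ :=
  (wr R m).lS (betG R i i')

theorem lX_add_lY (i : ℕ) (w : Co1 R m) : lX R m i w + lY R m i w = lam R m w := by
  unfold lX lY lam
  rw [H732.Reg.lS_apply, H732.Reg.lS_apply, H732.Reg.lS_apply, ← Finset.sum_union]
  · refine Finset.sum_congr ?_ fun _ _ => rfl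
    ext g
    simp only [Finset.mem_union, mem_befG, mem_aftG, H732.Reg.mem_neck]
    constructor
    · intro _; trivial
    · intro _; omega
  · rw [Finset.disjoint_left]
    intro g h1 h2
    simp only [mem_befG, mem_aftG] at h1 h2
    omega

theorem lX_succ {i i' : ℕ} (h : i ≤ i') (w : Co1 R m) :
    lX R m i' w = lX R m i w + lB R m i i' w := by
  unfold lX lB
  rw [H732.Reg.lS_apply, H732.Reg.lS_apply, H732.Reg.lS_apply, ← Finset.sum_union]
  · refine Finset.sum_congr ?_ fun _ _ => rfl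
    ext g
    simp only [Finset.mem_union, mem_befG, mem_betG]
    omega
  · rw [Finset.disjoint_left]
    intro g h1 h2
    simp only [mem_befG, mem_betG] at h1 h2
    omega

theorem lY_succ {i i' : ℕ} (h : i ≤ i') (w : Co1 R m) :
    lY R m i w = lY R m i' w + lB R m i i' w := by
  unfold lY lB
  rw [H732.Reg.lS_apply, H732.Reg.lS_apply, H732.Reg.lS_apply, ← Finset.sum_union]
  · refine Finset.sum_congr ?_ fun _ _ => rfl
    ext g
    simp only [Finset.mem_union, mem_aftG, mem_betG]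
    omega
  · rw [Finset.disjoint_left]
    intro g h1 h2
    simp only [mem_aftG, mem_betG] at h1 h2
    omega

/-! ### the coordinates -/

theorem XX_toSp {c : ℝ} {i : ℕ} (hi : i < R.n) (p : Co1 R m) :
    R.XX (toSp c p) i = c * Complex.exp (lX R m i p) := by
  have h1 : ∀ g : Fin (R.n + 1), (if (g : ℕ) ≤ i then (toSp c p).1 g else 1) =
      (if g = 0 then (c : ℂ) else 1) * (if (g : ℕ) ≤ i then (wr R m).tau p ⟨(), g⟩ else 1) := by
    intro g
    by_cases h : (g : ℕ) ≤ i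
    · have hl : g ≠ Fin.last R.n := by
        intro e; rw [e] at h; simp at h; omega
      rw [if_pos h, if_pos h]
      show cw1 c g * _ = _
      unfold cw1
      rw [if_neg hl, mul_one]
    · have h0 : g ≠ 0 := by
        intro e; rw [e] at h; simp at h
      rw [if_neg h, if_neg h, if_neg h0, mul_one]
  unfold Region1.XX
  rw [Finset.prod_congr rfl fun g _ => h1 g, Finset.prod_mul_distrib]
  congr 1
  · rw [Finset.prod_ite_eq']; simp
  · unfold lX
    rw [H732.Reg.exp_lS, befG, Finset.prod_filter, Fintype.prod_sigma]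
    simp

theorem YY_toSp {c : ℝ} {i : ℕ} (hi : i < R.n) (p : Co1 R m) :
    R.YY (toSp c p) i = c * Complex.exp (lY R m i p) := by
  have h1 : ∀ g : Fin (R.n + 1), (if i < (g : ℕ) then (toSp c p).1 g else 1) =
      (if g = Fin.last R.n then (c : ℂ) else 1) *
        (if i < (g : ℕ) then (wr R m).tau p ⟨(), g⟩ else 1) := by
    intro g
    by_cases h : i < (g : ℕ)
    · have h0 : g ≠ 0 := by
        intro e; rw [e] at h; simp at h
      rw [if_pos h, if_pos h]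
      show cw1 c g * _ = _
      unfold cw1
      rw [if_neg h0, one_mul]
    · have hl : g ≠ Fin.last R.n := by
        intro e; rw [e] at h; simp at h; omega
      rw [if_neg h, if_neg h, if_neg hl, mul_one]
  unfold Region1.YY
  rw [Finset.prod_congr rfl fun g _ => h1 g, Finset.prod_mul_distrib]
  congr 1
  · rw [Finset.prod_ite_eq']; simp
  · unfold lY
    rw [H732.Reg.exp_lS, aftG, Finset.prod_filter, Fintype.prod_sigma]
    simp

/-- `X` -/
def Xj (c : ℝ) (p : Co1 R m) (j : L) : ℂ := R.XX (toSp c p) (R.rk j)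

/-- `Y` -/
def Yj (c : ℝ) (p : Co1 R m) (j : L) : ℂ := R.YY (toSp c p) (R.rk j)

theorem rk_lt' {j : L} (hj : R.nk j = true) : R.rk j < R.n := R.rk_lt j hj

theorem Xj_eq {c : ℝ} {j : L} (hj : R.nk j = true) (p : Co1 R m) :
    Xj c p j = c * Complex.exp (lX R m (R.rk j) p) := XX_toSp (rk_lt' hj) p

theorem Yj_eq {c : ℝ} {j : L} (hj : R.nk j = true) (p : Co1 R m) :
    Yj c p j = c * Complex.exp (lY R m (R.rk j) p) := YY_toSp (rk_lt' hj) p

/-- `X Y = d^2` -/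
theorem Xj_mul_Yj {c : ℝ} {j : L} (hj : R.nk j = true) (p : Co1 R m) :
    Xj c p j * Yj c p j = zh c p ^ 2 := by
  rw [Xj_eq hj, Yj_eq hj, zh_eq, mul_pow, ← Complex.exp_nat_mul]
  have : ((2 : ℕ) : ℂ) * (lam R m p / 2) = lX R m (R.rk j) p + lY R m (R.rk j) p := by
    rw [lX_add_lY]; push_cast; ring
  rw [this, Complex.exp_add]
  ring

theorem qb_castSucc (k : Fin 5) (p : Co1 R m) : qb k p k.castSucc = p.2.2.2.2 (Sum.inr 0) := by
  simp [qb, pr]

theorem pr_qb (k : Fin 5) (p : Co1 R m) (d : ℂ) : pr k (qb k p) (qb k p k.castSucc) d =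
    pr k (fun j => p.2.2.2.2 (Sum.inr (oj k j).succ)) (p.2.2.2.2 (Sum.inr 0)) d := by
  rw [qb_castSucc]
  funext j
  simp only [pr, qb]
  split_ifs <;> rfl

/-- **(T1)** the roots -/
theorem toE_roots (k : Fin 5) (c : ℝ) (p : Co1 R m) :
    (toE k c p).1 = H730.bd k (qb k p) (zh c p) := (pr_qb k p (zh c p)).symm

/-- **(T1)** a mark in the neck -/
theorem toE_neck (k : Fin 5) (c : ℝ) (p : Co1 R m) {j : L} (hj : R.nk j = true) :
    (toE k c p).2 j = H730.xn k (qb k p) (Xj c p j) (Yj c p j) := by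
  show R.pos (toSp c p) j = _
  unfold Region1.pos H730.xn Xj Yj
  rw [dif_neg (by rw [hj]; simp), qb_castSucc]
  rfl

/-- **(T1)** a mark on the core -/
theorem toE_core (k : Fin 5) (c : ℝ) (p : Co1 R m) {j : L} (hj : R.nk j = false) :
    (toE k c p).2 j = p.2.2.2.2 (Sum.inl ⟨j, hj⟩) := by
  show R.pos (toSp c p) j = _
  unfold Region1.pos
  rw [dif_pos hj]
  rfl

/-! ### derivatives -/

theorem hasFDerivAt_Xj {c : ℝ} {j : L} (hj : R.nk j = true) (p : Co1 R m) :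
    HasFDerivAt (fun p : Co1 R m => Xj c p j) (Xj c p j • lX R m (R.rk j)) p := by
  have h := ((lX R m (R.rk j)).hasFDerivAt (x := p)).cexp.const_mul (c : ℂ)
  have e : (fun p : Co1 R m => Xj c p j) = fun p => (c : ℂ) * Complex.exp (lX R m (R.rk j) p) :=
    funext fun p => Xj_eq hj p
  rw [e]
  refine h.congr_fderiv ?_
  rw [smul_smul, Xj_eq hj]

theorem hasFDerivAt_Yj {c : ℝ} {j : L} (hj : R.nk j = true) (p : Co1 R m) :
    HasFDerivAt (fun p : Co1 R m => Yj c p j) (Yj c p j • lY R m (R.rk j)) p := by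
  have h := ((lY R m (R.rk j)).hasFDerivAt (x := p)).cexp.const_mul (c : ℂ)
  have e : (fun p : Co1 R m => Yj c p j) = fun p => (c : ℂ) * Complex.exp (lY R m (R.rk j) p) :=
    funext fun p => Yj_eq hj p
  rw [e]
  refine h.congr_fderiv ?_
  rw [smul_smul, Yj_eq hj]

theorem toE_hasFDerivAt (k : Fin 5) (c : ℝ) (p : Co1 R m) :
    HasFDerivAt (toE k c : Co1 R m → E) (fderiv ℝ (toE k c) p) p :=
  ((H401.Ch1.contDiff_toE (n := 1) k c).differentiable (by simp) p).hasFDerivAt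

theorem fderiv_mark (k : Fin 5) (c : ℝ) (p w : Co1 R m) (j : L) {A : Co1 R m →L[ℝ] ℂ}
    (h : HasFDerivAt (fun p : Co1 R m => (toE k c p).2 j) A p) :
    (fderiv ℝ (toE k c) p w).2 j = A w := by
  have h1 := (ContinuousLinearMap.proj (R := ℝ) (φ := fun _ : L => ℂ) j).hasFDerivAt.comp p
    ((ContinuousLinearMap.snd ℝ C6 (L → ℂ)).hasFDerivAt.comp p (toE_hasFDerivAt k c p))
  rw [← h1.unique h]
  rfl

/-- **(T2)** the roots -/
theorem fderiv_roots (k : Fin 5) (c : ℝ) (p w : Co1 R m) :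
    (fderiv ℝ (toE k c) p w).1 = H730.bw k (qb k w) (zh c p) (lam R m w / 2) := by
  rw [base_of_hasFDerivAt (toE_hasFDerivAt k c p)]
  show _ = pr k (qb k w) (qb k w k.castSucc) (zh c p * (lam R m w / 2))
  rw [pr_qb, lam_apply]
  unfold dbase
  congr 1
  ring

/-- **(T2)** a mark in the neck -/
theorem fderiv_neck (k : Fin 5) (c : ℝ) (p w : Co1 R m) {j : L} (hj : R.nk j = true) :
    ((fderiv ℝ (toE k c) p w).1, (fderiv ℝ (toE k c) p w).2 j) =
      H730.nv k (qb k w) (zh c p) (Xj c p j) (Yj c p j) (lX R m (R.rk j) w) (lY R m (R.rk j) w) := by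
  have hc : HasFDerivAt (fun p : Co1 R m => p.2.2.2.2 (Sum.inr 0)) (prj (m := m) 0) p :=
    (prj (R := R) (m := m) 0).hasFDerivAt
  have h : HasFDerivAt (fun p : Co1 R m => (toE k c p).2 j)
      (prj (m := m) 0 + (2 : ℂ)⁻¹ • (Xj c p j • lX R m (R.rk j) + Yj c p j • lY R m (R.rk j))) p := by
    have e : (fun p : Co1 R m => (toE k c p).2 j) =
        fun p => p.2.2.2.2 (Sum.inr 0) + (2 : ℂ)⁻¹ * (Xj c p j + Yj c p j) := by
      funext p
      rw [toE_neck k c p hj]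
      unfold H730.xn
      rw [qb_castSucc]
      ring
    rw [e]
    exact hc.add (((hasFDerivAt_Xj hj p).add (hasFDerivAt_Yj hj p)).const_mul _)
  unfold H730.nv
  rw [fderiv_roots, fderiv_mark k c p w j h, ← lX_add_lY (R.rk j), qb_castSucc]
  refine Prod.ext rfl ?_
  show w.2.2.2.2 (Sum.inr 0) + (2 : ℂ)⁻¹ * (Xj c p j * lX R m (R.rk j) w +
    Yj c p j * lY R m (R.rk j) w) = w.2.2.2.2 (Sum.inr 0) + (Xj c p j * lX R m (R.rk j) w +
    Yj c p j * lY R m (R.rk j) w) / 2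
  ring

/-- **(T2)** a mark on the core -/
theorem fderiv_core (k : Fin 5) (c : ℝ) (p w : Co1 R m) {j : L} (hj : R.nk j = false) :
    ((fderiv ℝ (toE k c) p w).1, (fderiv ℝ (toE k c) p w).2 j) =
      (H730.bw k (qb k w) (zh c p) (lam R m w / 2), w.2.2.2.2 (Sum.inl ⟨j, hj⟩)) := by
  have h : HasFDerivAt (fun p : Co1 R m => (toE k c p).2 j)
      ((ContinuousLinearMap.proj (Sum.inl ⟨j, hj⟩ : R.Cm ⊕ Fin 5)).comp (wr R m).sc) p := by
    have e : (fun p : Co1 R m => (toE k c p).2 j) = fun p => p.2.2.2.2 (Sum.inl ⟨j, hj⟩) :=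
      funext fun p => toE_core k c p hj
    rw [e]
    exact ((ContinuousLinearMap.proj (R := ℝ) (φ := fun _ : R.Cm ⊕ Fin 5 => ℂ)
      (Sum.inl ⟨j, hj⟩)).comp (wr R m).sc).hasFDerivAt
  rw [fderiv_roots, fderiv_mark k c p w j h]
  rfl

/-! ### (T3) the values -/

theorem mem_nk (g : Σ _ : Unit, Fin (R.n + 1)) : (wr R m).nk g = () := rfl

theorem last_val : (wr R m).last () = ⟨(), m⟩ := rfl

theorem lX_u (i : ℕ) (f : (wr R m).Fr) : lX R m i ((wr R m).vec (.u f)) =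
    (if (m : ℕ) ≤ i then 1 else 0) - (if (f.1.2 : ℕ) ≤ i then 1 else 0) := by
  unfold lX
  rw [H732.Reg.lS_vec_u]
  simp only [mem_befG]
  rfl

theorem lY_u (i : ℕ) (f : (wr R m).Fr) : lY R m i ((wr R m).vec (.u f)) =
    (if i < (m : ℕ) then 1 else 0) - (if i < (f.1.2 : ℕ) then 1 else 0) := by
  unfold lY
  rw [H732.Reg.lS_vec_u]
  simp only [mem_aftG]
  rfl

theorem lX_ph (i : ℕ) (f : (wr R m).Fr) : lX R m i ((wr R m).vec (.ph f)) =
    ((if (f.1.2 : ℕ) ≤ i then 1 else 0) - (if (m : ℕ) ≤ i then 1 else 0)) * Complex.I := by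
  unfold lX
  rw [H732.Reg.lS_vec_ph]
  simp only [mem_befG]
  rfl

theorem lY_ph (i : ℕ) (f : (wr R m).Fr) : lY R m i ((wr R m).vec (.ph f)) =
    ((if i < (f.1.2 : ℕ) then 1 else 0) - (if i < (m : ℕ) then 1 else 0)) * Complex.I := by
  unfold lY
  rw [H732.Reg.lS_vec_ph]
  simp only [mem_aftG]
  rfl

theorem lX_al (i : ℕ) : lX R m i ((wr R m).vec (.al ())) =
    (if (m : ℕ) ≤ i then 1 else 0) * Complex.I := by
  unfold lX
  rw [H732.Reg.lS_vec_al]
  simp only [mem_befG]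
  rfl

theorem lY_al (i : ℕ) : lY R m i ((wr R m).vec (.al ())) =
    (if i < (m : ℕ) then 1 else 0) * Complex.I := by
  unfold lY
  rw [H732.Reg.lS_vec_al]
  simp only [mem_aftG]
  rfl

theorem lX_re (i : ℕ) (a : R.Cm ⊕ Fin 5) : lX R m i ((wr R m).vec (.re a)) = 0 :=
  (wr R m).lS_vec_re _ _

theorem lX_im (i : ℕ) (a : R.Cm ⊕ Fin 5) : lX R m i ((wr R m).vec (.im a)) = 0 :=
  (wr R m).lS_vec_im _ _

theorem lY_re (i : ℕ) (a : R.Cm ⊕ Fin 5) : lY R m i ((wr R m).vec (.re a)) = 0 :=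
  (wr R m).lS_vec_re _ _

theorem lY_im (i : ℕ) (a : R.Cm ⊕ Fin 5) : lY R m i ((wr R m).vec (.im a)) = 0 :=
  (wr R m).lS_vec_im _ _

theorem lam_u (f : (wr R m).Fr) : lam R m ((wr R m).vec (.u f)) = 0 := by
  rw [lam_apply]; simp [H732.Reg.vec]

theorem lam_ph (f : (wr R m).Fr) : lam R m ((wr R m).vec (.ph f)) = 0 := by
  rw [lam_apply]; simp [H732.Reg.vec]

theorem lam_al : lam R m ((wr R m).vec (.al ())) = Complex.I := by
  rw [lam_apply]; simp [H732.Reg.vec]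

theorem lam_y (p : Co1 R m) : lam R m ((wr R m).eul p ()) = -1 := by
  rw [lam_apply]; simp [H732.Reg.eul]

theorem lam_re (a : R.Cm ⊕ Fin 5) : lam R m ((wr R m).vec (.re a)) = 0 := by
  rw [lam_apply]; simp [H732.Reg.vec]

theorem lam_im (a : R.Cm ⊕ Fin 5) : lam R m ((wr R m).vec (.im a)) = 0 := by
  rw [lam_apply]; simp [H732.Reg.vec]

theorem qb_u (k : Fin 5) (f : (wr R m).Fr) : qb k ((wr R m).vec (.u f)) = 0 := by
  funext j; simp [qb, pr, H732.Reg.vec]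

theorem qb_ph (k : Fin 5) (f : (wr R m).Fr) : qb k ((wr R m).vec (.ph f)) = 0 := by
  funext j; simp [qb, pr, H732.Reg.vec]

theorem qb_al (k : Fin 5) : qb k ((wr R m).vec (.al ())) = 0 := by
  funext j; simp [qb, pr, H732.Reg.vec]

theorem qb_y (k : Fin 5) (p : Co1 R m) : qb k ((wr R m).eul p ()) = 0 := by
  funext j; simp [qb, pr, H732.Reg.eul]

theorem norm_qb_le (k : Fin 5) (w : Co1 R m) (h : ∀ a, ‖w.2.2.2.2 (Sum.inr a)‖ ≤ 1) :
    ‖qb k w‖ ≤ 1 := by
  refine (pi_norm_le_iff_of_nonneg zero_le_one).2 fun j => ?_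
  simp only [qb, pr, sub_zero, add_zero]
  split_ifs
  · exact h 0
  · exact h 0
  · exact h _

theorem norm_single_le {ι : Type*} [DecidableEq ι] (a b : ι) (z : ℂ) (hz : ‖z‖ ≤ 1) :
    ‖(Pi.single a z : ι → ℂ) b‖ ≤ 1 := by
  rw [Pi.single_apply]
  split_ifs
  · exact hz
  · simp

theorem norm_zh {c : ℝ} (hc : 0 < c) (p : Co1 R m) : ‖zh c p‖ = c * Real.exp (-p.2.2.1 () / 2) := by
  rw [zh_eq, norm_mul, Complex.norm_exp, lam_apply, Complex.norm_real, Real.norm_eq_abs,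
    abs_of_pos hc]
  congr 2
  simp

/-- the length of the neck -/
theorem yl_zh {c : ℝ} (hc : 0 < c) (p : Co1 R m) : H730.yl c (zh c p) = p.2.2.1 () := by
  unfold H730.yl
  rw [norm_zh hc, ← div_div, div_self hc.ne', one_div, ← Real.exp_neg, Real.log_exp]
  ring

theorem norm_Xj {c : ℝ} (hc : 0 < c) {j : L} (hj : R.nk j = true) (p : Co1 R m) :
    ‖Xj c p j‖ = c * Real.exp (-∑ g ∈ befG R (R.rk j), (wr R m).ug p g) := by
  rw [Xj_eq hj, norm_mul, Complex.norm_exp, Complex.norm_real, Real.norm_eq_abs, abs_of_pos hc]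
  unfold lX
  rw [H732.Reg.lS_re]

theorem norm_Yj {c : ℝ} (hc : 0 < c) {j : L} (hj : R.nk j = true) (p : Co1 R m) :
    ‖Yj c p j‖ = c * Real.exp (-∑ g ∈ aftG R (R.rk j), (wr R m).ug p g) := by
  rw [Yj_eq hj, norm_mul, Complex.norm_exp, Complex.norm_real, Real.norm_eq_abs, abs_of_pos hc]
  unfold lY
  rw [H732.Reg.lS_re]

theorem sub_neck (S : Finset (Σ _ : Unit, Fin (R.n + 1))) : S ⊆ (wr R m).neck () := fun g _ =>
  (H732.Reg.mem_neck _).2 rfl

/-- **(T3), Euler direction**: literally the one of `NeckO` -/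
theorem lX_eul {c : ℝ} (hc : 0 < c) {j : L} (hj : R.nk j = true) {p : Co1 R m}
    (hy : p.2.2.1 () ≠ 0) : lX R m (R.rk j) ((wr R m).eul p ()) =
      (((p.2.2.1 ())⁻¹ * Real.log (‖Xj c p j‖ / c) : ℝ) : ℂ) := by
  unfold lX
  rw [H732.Reg.lS_eul _ (sub_neck _) p hy, norm_Xj hc hj, mul_div_cancel_left₀ _ hc.ne',
    Real.log_exp, ← Complex.ofReal_neg]
  congr 1
  ring

theorem lY_eul {c : ℝ} (hc : 0 < c) {j : L} (hj : R.nk j = true) {p : Co1 R m}
    (hy : p.2.2.1 () ≠ 0) : lY R m (R.rk j) ((wr R m).eul p ()) =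
      (((p.2.2.1 ())⁻¹ * Real.log (‖Yj c p j‖ / c) : ℝ) : ℂ) := by
  unfold lY
  rw [H732.Reg.lS_eul _ (sub_neck _) p hy, norm_Yj hc hj, mul_div_cancel_left₀ _ hc.ne',
    Real.log_exp, ← Complex.ofReal_neg]
  congr 1
  ring

/-! ### (T4) inequalities -/

section Ineq

variable {p : Co1 R m}

theorem ul_nn (hp : (wr R m).Inr p) (hy : 0 ≤ p.2.2.1 ()) (k : Unit) : 0 ≤ (wr R m).ul p k :=
  (wr R m).ul_nonneg hp k hy

theorem ug_nn (hp : (wr R m).Inr p) (hy : 0 ≤ p.2.2.1 ()) (g : Σ _ : Unit, Fin (R.n + 1)) :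
    0 ≤ (wr R m).ug p g := (wr R m).ug_nonneg hp (ul_nn hp hy) g

theorem le_sum_ug (hp : (wr R m).Inr p) (hy : 0 ≤ p.2.2.1 ())
    {S : Finset (Σ _ : Unit, Fin (R.n + 1))} {g : Σ _ : Unit, Fin (R.n + 1)} (hg : g ∈ S) :
    (wr R m).ug p g ≤ ∑ g ∈ S, (wr R m).ug p g :=
  Finset.single_le_sum (fun g _ => ug_nn hp hy g) hg

/-- if the free gap or the eliminated gap is in `S` then `S` has size at least `u_f` -/
theorem u_le_sum (hp : (wr R m).Inr p) (hy : 0 ≤ p.2.2.1 ())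
    {S : Finset (Σ _ : Unit, Fin (R.n + 1))} (f : (wr R m).Fr)
    (h : f.1 ∈ S ∨ (wr R m).last () ∈ S) : p.1 f ≤ ∑ g ∈ S, (wr R m).ug p g := by
  rcases h with h | h
  · have := le_sum_ug hp hy h
    rwa [H732.Reg.ug_free] at this
  · have := le_sum_ug hp hy h
    rw [H732.Reg.ug_last] at this
    exact (hp.2 f).trans this

theorem ul_le_sum (hp : (wr R m).Inr p) (hy : 0 ≤ p.2.2.1 ())
    {S : Finset (Σ _ : Unit, Fin (R.n + 1))} (h : (wr R m).last () ∈ S) :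
    (wr R m).ul p () ≤ ∑ g ∈ S, (wr R m).ug p g := by
  have := le_sum_ug hp hy h
  rwa [H732.Reg.ug_last] at this

theorem norm_Xj_le (hp : (wr R m).Inr p) (hy : 0 ≤ p.2.2.1 ()) {c : ℝ} (hc : 0 < c) {j : L}
    (hj : R.nk j = true) : ‖Xj c p j‖ ≤ c := by
  rw [norm_Xj hc hj]
  refine mul_le_of_le_one_right hc.le (Real.exp_le_one_iff.2 ?_)
  exact neg_nonpos.2 (Finset.sum_nonneg fun g _ => ug_nn hp hy g)

theorem norm_Yj_le (hp : (wr R m).Inr p) (hy : 0 ≤ p.2.2.1 ()) {c : ℝ} (hc : 0 < c) {j : L}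
    (hj : R.nk j = true) : ‖Yj c p j‖ ≤ c := by
  rw [norm_Yj hc hj]
  refine mul_le_of_le_one_right hc.le (Real.exp_le_one_iff.2 ?_)
  exact neg_nonpos.2 (Finset.sum_nonneg fun g _ => ug_nn hp hy g)

/-- on the direction of a free gap: if the mark moves then both coordinates are small -/
theorem moved_u (hp : (wr R m).Inr p) (hy : 0 ≤ p.2.2.1 ()) {c : ℝ} (hc : 0 < c) {j : L}
    (hj : R.nk j = true) (f : (wr R m).Fr)
    (h : ¬ ((m : ℕ) ≤ R.rk j ↔ (f.1.2 : ℕ) ≤ R.rk j)) :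
    ‖Xj c p j‖ ≤ c * Real.exp (-p.1 f) ∧ ‖Yj c p j‖ ≤ c * Real.exp (-p.1 f) := by
  rw [norm_Xj hc hj, norm_Yj hc hj]
  constructor
  · refine mul_le_mul_of_nonneg_left (Real.exp_le_exp.2 (neg_le_neg (u_le_sum hp hy f ?_))) hc.le
    simp only [mem_befG, last_val]
    tauto
  · refine mul_le_mul_of_nonneg_left (Real.exp_le_exp.2 (neg_le_neg (u_le_sum hp hy f ?_))) hc.le
    simp only [mem_aftG, last_val]
    by_contra hcon
    push Not at hcon
    exact h ⟨fun _ => hcon.1, fun _ => hcon.2⟩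

theorem lX_u_ne {i : ℕ} {f : (wr R m).Fr} (h : lX R m i ((wr R m).vec (.u f)) ≠ 0) :
    ¬ ((m : ℕ) ≤ i ↔ (f.1.2 : ℕ) ≤ i) := by
  intro h2
  apply h
  rw [lX_u]
  by_cases h3 : (m : ℕ) ≤ i
  · rw [if_pos h3, if_pos (h2.1 h3), sub_self]
  · rw [if_neg h3, if_neg (fun h4 => h3 (h2.2 h4)), sub_self]

theorem lX_ph_ne {i : ℕ} {f : (wr R m).Fr} (h : lX R m i ((wr R m).vec (.ph f)) ≠ 0) :
    ¬ ((m : ℕ) ≤ i ↔ (f.1.2 : ℕ) ≤ i) := by
  intro h2
  apply h
  rw [lX_ph]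
  by_cases h3 : (m : ℕ) ≤ i
  · rw [if_pos h3, if_pos (h2.1 h3), sub_self, zero_mul]
  · rw [if_neg h3, if_neg (fun h4 => h3 (h2.2 h4)), sub_self, zero_mul]

theorem lY_u_eq (i : ℕ) (f : (wr R m).Fr) :
    lY R m i ((wr R m).vec (.u f)) = -lX R m i ((wr R m).vec (.u f)) := by
  have := lX_add_lY (R := R) (m := m) i ((wr R m).vec (.u f))
  rw [lam_u] at this
  exact eq_neg_of_add_eq_zero_right this

theorem lY_ph_eq (i : ℕ) (f : (wr R m).Fr) :
    lY R m i ((wr R m).vec (.ph f)) = -lX R m i ((wr R m).vec (.ph f)) := by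
  have := lX_add_lY (R := R) (m := m) i ((wr R m).vec (.ph f))
  rw [lam_ph] at this
  exact eq_neg_of_add_eq_zero_right this

theorem norm_lX_le (i : ℕ) (d : Dir1 R m) : ‖lX R m i ((wr R m).vec d)‖ ≤ 1 :=
  (wr R m).norm_lS_vec_le _ d

theorem norm_lY_le (i : ℕ) (d : Dir1 R m) : ‖lY R m i ((wr R m).vec d)‖ ≤ 1 :=
  (wr R m).norm_lS_vec_le _ d

theorem norm_lX_eul_le (hp : (wr R m).Inr p) (hy : 0 < p.2.2.1 ()) (i : ℕ) :
    ‖lX R m i ((wr R m).eul p ())‖ ≤ 1 :=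
  (wr R m).norm_lS_eul_le hp (ul_nn hp hy.le) (sub_neck _) hy

theorem norm_lY_eul_le (hp : (wr R m).Inr p) (hy : 0 < p.2.2.1 ()) (i : ℕ) :
    ‖lY R m i ((wr R m).eul p ())‖ ≤ 1 :=
  (wr R m).norm_lS_eul_le hp (ul_nn hp hy.le) (sub_neck _) hy

end Ineq

end Vale.Agent.P273.H828
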