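import Vale.Agent.P273.H828.Strip

/-!
# P273, row ANN: tubes: small pairs moved along a path at the divisor
-/

noncomputable section

namespace Vale.Agent.P273.H828

open Set MeasureTheory Filter Topology
open Vale.Agent.P273.H401 Vale.Agent.P273.H681

/-- the centre of the pair `k`, `k+1` and the other points -/
def JL (k : Fin 5) : C6 →L[ℝ] C6 :=
  ContinuousLinearMap.pi fun j => ContinuousLinearMap.proj (if j = k.succ then k.castSucc else j)

/-- the half difference -/
def IL (k : Fin 5) : ℂ →L[ℝ] C6 :=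
  ContinuousLinearMap.pi fun j =>
    (if j = k.castSucc then (-1 : ℝ) else if j = k.succ then 1 else 0) • ContinuousLinearMap.id ℝ ℂ

theorem castSucc_ne_succ (k : Fin 5) : k.castSucc ≠ k.succ := by
  intro h
  have := congrArg Fin.val h
  simp at this

theorem pr_eq (k : Fin 5) (b : C6) (d : ℂ) : pr k b (b k.castSucc) d = JL k b + IL k d := by
  funext j
  simp only [pr, JL, IL, Pi.add_apply, ContinuousLinearMap.coe_pi', ContinuousLinearMap.proj_apply,
    ContinuousLinearMap.smul_apply, ContinuousLinearMap.id_apply]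
  by_cases h1 : j = k.castSucc
  · subst h1
    simp [castSucc_ne_succ, sub_eq_add_neg]
  · by_cases h2 : j = k.succ
    · subst h2
      simp [h1]
    · simp [h1, h2]

theorem IL_eq (k : Fin 5) (d : ℂ) : IL k d = pr k 0 0 d := by
  funext j
  simp only [pr, IL, ContinuousLinearMap.coe_pi', ContinuousLinearMap.smul_apply,
    ContinuousLinearMap.id_apply]
  by_cases h1 : j = k.castSucc
  · subst h1
    simp
  · by_cases h2 : j = k.succ
    · subst h2
      simp [h1]
    · simp [h1, h2]

theorem JL_pair (k : Fin 5) (w : C6) : JL k w k.castSucc = JL k w k.succ := by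
  simp [JL, castSucc_ne_succ]

/-- a tube: the pair `k`, `k+1` with half difference `S (l, s, t)` at the configuration `b t`,
`0 ≤ l`, `s, t ∈ [0,1]`; for large `l` the pair is round of size `ρ t` -/
structure Tube (k : Fin 5) where
  b : ℝ → C6
  S : (Fin 3 → ℝ) → ℂ
  ρ : ℝ → ℝ
  l₁ : ℝ
  hb : ContDiff ℝ 2 b
  hS : ContDiff ℝ 2 S
  hρ : ContDiff ℝ 1 ρ
  hρ0 : ∀ t ∈ Icc (0 : ℝ) 1, 0 < ρ t
  hfar : ∀ x : Fin 3 → ℝ, l₁ < x 0 → S x = ρ (x 2) * zz (x 0) (x 1)
  hflip : ∀ l t : ℝ, 0 ≤ l → t ∈ Icc (0 : ℝ) 1 → S ![l, 1, t] = -S ![l, 0, t]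
  hpos : ∀ l t : ℝ, 0 ≤ l → t ∈ Icc (0 : ℝ) 1 → 0 < (S ![l, 0, t]).re
  hXD : ∀ t ∈ Icc (0 : ℝ) 1, b t ∈ XD k
  hXX : ∀ l s t : ℝ, 0 ≤ l → s ∈ Icc (0 : ℝ) 1 → t ∈ Icc (0 : ℝ) 1 →
    pr k (b t) (b t k.castSucc) (S ![l, s, t]) ∈ XX

/-- the family of the tube -/
def Tube.R {k : Fin 5} (T : Tube k) (x : Fin 3 → ℝ) : C6 :=
  pr k (T.b (x 2)) (T.b (x 2) k.castSucc) (T.S x)

variable {V F : Type*} [AddCommGroup V] [Module ℝ V] [NormedAddCommGroup F] [NormedSpace ℝ F]

/-- the annulus of the tube at time `t` -/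
def Tube.A {k : Fin 5} (T : Tube k) (D : Loc2 V F) (v : V) (t : ℝ) : F :=
  ∫ y in strip, pb (fun y : Fin 2 → ℝ => T.R ![y 0, y 1, t]) (D.Phi v) y (eb 2)

/-- **tube theorem**: the integral over the outer face is the difference of the annuli -/
def TubeProp (D : Loc2 V F) : Prop := ∀ (k : Fin 5) (v : V), D.s k v = v → ∀ T : Tube k,
  cubeInt (pb (fun y : Fin 2 → ℝ => T.R ![0, y 0, y 1]) (D.Phi v)) = T.A D v 1 - T.A D v 0

theorem zz_re (l s : ℝ) : (zz l s).re = Real.exp (-l) * Real.cos (Real.pi * s) := by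
  unfold zz
  rw [Complex.exp_re]
  simp

theorem zz_im (l s : ℝ) : (zz l s).im = -(Real.exp (-l) * Real.sin (Real.pi * s)) := by
  unfold zz
  rw [Complex.exp_im]
  simp [Real.sin_neg]

theorem pr_mem {k : Fin 5} {b : C6} (hb : b ∈ XD k) {d : ℂ} (hd : d.re = 0 → d.im < 0)
    (hsep : ∀ j, j ≠ k.castSucc → j ≠ k.succ → |d.re| < |(b j).re - (b k.castSucc).re|) :
    pr k b (b k.castSucc) d ∈ XX := by
  have hval : ∀ j, pr k b (b k.castSucc) d j = if j = k.castSucc then b k.castSucc - d else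
    if j = k.succ then b k.castSucc + d else b j := fun j => rfl
  have h1 : ∀ j, j ≠ k.castSucc → j ≠ k.succ → (b j).re ≠ (b k.castSucc - d).re := by
    intro j hj1 hj2 h
    have := hsep j hj1 hj2
    rw [h, Complex.sub_re] at this
    rw [show (b k.castSucc).re - d.re - (b k.castSucc).re = -d.re by ring, abs_neg] at this
    exact lt_irrefl _ this
  have h2 : ∀ j, j ≠ k.castSucc → j ≠ k.succ → (b j).re ≠ (b k.castSucc + d).re := by
    intro j hj1 hj2 h
    have := hsep j hj1 hj2
    rw [h, Complex.add_re] at this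
    rw [show (b k.castSucc).re + d.re - (b k.castSucc).re = d.re by ring] at this
    exact lt_irrefl _ this
  intro i j hij hre
  rw [hval, hval] at hre ⊢
  by_cases hi1 : i = k.castSucc
  · rw [if_pos hi1] at hre ⊢
    by_cases hj1 : j = k.castSucc
    · exact absurd (hi1.trans hj1.symm) hij.ne
    · rw [if_neg hj1] at hre ⊢
      by_cases hj2 : j = k.succ
      · rw [if_pos hj2] at hre ⊢
        rw [Complex.sub_re, Complex.add_re] at hre
        have := hd (by linarith)
        rw [Complex.sub_im, Complex.add_im]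
        linarith
      · rw [if_neg hj2] at hre
        exact absurd hre.symm (h1 j hj1 hj2)
  · rw [if_neg hi1] at hre ⊢
    by_cases hi2 : i = k.succ
    · rw [if_pos hi2] at hre ⊢
      by_cases hj1 : j = k.castSucc
      · exfalso
        rw [hi2, hj1] at hij
        exact absurd hij (by simp [Fin.lt_def])
      · rw [if_neg hj1] at hre ⊢
        by_cases hj2 : j = k.succ
        · exact absurd (hi2.trans hj2.symm) hij.ne
        · rw [if_neg hj2] at hre
          exact absurd hre.symm (h2 j hj1 hj2)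
    · rw [if_neg hi2] at hre ⊢
      by_cases hj1 : j = k.castSucc
      · rw [if_pos hj1] at hre
        exact absurd hre (h1 i hi1 hi2)
      · rw [if_neg hj1] at hre ⊢
        by_cases hj2 : j = k.succ
        · rw [if_pos hj2] at hre
          exact absurd hre (h2 i hi1 hi2)
        · rw [if_neg hj2] at hre ⊢
          exact hb.2 i j hij (Or.inl hi1) hre

/-- the sign condition for the round shape -/
theorem zz_neg {c l s : ℝ} (hc : 0 < c) (hs : s ∈ Icc (0 : ℝ) 1) :
    ((c : ℂ) * zz l s).re = 0 → ((c : ℂ) * zz l s).im < 0 := by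
  rw [Complex.re_ofReal_mul, Complex.im_ofReal_mul, zz_re, zz_im]
  intro h
  have hcos : Real.cos (Real.pi * s) = 0 := by
    rcases mul_eq_zero.1 h with h | h
    · exact absurd h hc.ne'
    · rcases mul_eq_zero.1 h with h | h
      · exact absurd h (Real.exp_pos _).ne'
      · exact h
  have hsin : 0 ≤ Real.sin (Real.pi * s) :=
    Real.sin_nonneg_of_nonneg_of_le_pi (mul_nonneg Real.pi_pos.le hs.1)
      (by nlinarith [Real.pi_pos, hs.2])
  have h1 := Real.sin_sq_add_cos_sq (Real.pi * s)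
  rw [hcos] at h1
  have h2 : Real.sin (Real.pi * s) ≠ 0 := by
    intro h0
    rw [h0] at h1
    norm_num at h1
  have h3 : 0 < Real.sin (Real.pi * s) := lt_of_le_of_ne hsin h2.symm
  have := mul_pos hc (mul_pos (Real.exp_pos (-l)) h3)
  linarith

end Vale.Agent.P273.H828
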