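import Vale.Agent.P273.H828.Asm
import Vale.Agent.P273.H828.Tube
import Vale.Agent.P273.H401.Tori
import Vale.Agent.P273.H473.Rib3
import Vale.Agent.P273.H618.AnnC
import Vale.Agent.P273.H931.AnnA

/-!
# P273, row ANN: the final statement
-/

noncomputable section

namespace Vale.Agent.P273.H828

open Set MeasureTheory Filter Topology
open Vale.Agent.P273.H401 Vale.Agent.P273.H681

variable {V F : Type*} [AddCommGroup V] [Module ℝ V] [NormedAddCommGroup F] [NormedSpace ℝ F]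

theorem good_dsc (k : Fin 5) : Good 2 (dsc k) := by
  refine ⟨?_, fun y hy => ?_⟩
  · refine contDiff_cfg fun a => ?_
    split_ifs
    · exact contDiff_Hd.comp ((contDiff_apply ℝ ℝ 0).prodMk (contDiff_apply ℝ ℝ 1))
    · exact contDiff_const
  · refine cfg_mem (fun a => ?_) fun a => ?_
    · by_cases h : a.castSucc = k
      · right
        have : a.succ ≠ k := by
          intro e; rw [← h] at e; simp [Fin.ext_iff] at e
        simp [this]
      · left; simp [h]
    · split_ifs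
      · exact slit_Hd ⟨hy.1 0, hy.2 0⟩ ⟨hy.1 1, hy.2 1⟩
      · exact slit_one

theorem mmF_eq {r : ℝ} (hr : r ∈ Ioc (0 : ℝ) 1) (c : Fin 3) (y : Fin 2 → ℝ) :
    mmF r c y = (H931.tubeA hr c).R ![0, y 1, y 0] := by
  rw [H931.tubeA_R]
  rfl

theorem good_mmF {r : ℝ} (hr : r ∈ Ioc (0 : ℝ) 1) (c : Fin 3) : Good 2 (mmF r c) := by
  have e : mmF r c = fun y => (H931.tubeA hr c).R ![0, y 1, y 0] := funext fun y => mmF_eq hr c y
  rw [e]
  refine ⟨(H931.tubeA hr c).contDiff.comp (contDiff_pi.2 fun j => ?_), fun y hy => ?_⟩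
  · fin_cases j
    · exact contDiff_const
    · exact contDiff_apply ℝ ℝ 1
    · exact contDiff_apply ℝ ℝ 0
  · exact (H931.tubeA hr c).mem (x := ![0, y 1, y 0]) le_rfl ⟨hy.1 1, hy.2 1⟩ ⟨hy.1 0, hy.2 0⟩

theorem MM_add (D : Loc2 V F) {r : ℝ} (hr : r ∈ Ioc (0 : ℝ) 1) (c : Fin 3) (u v : V) :
    MM D r c (u + v) = MM D r c u + MM D r c v := sq_add D u v (good_mmF hr c)

/-- Dsc as an additive map -/
def DsA (D : Loc2 V F) (k : Fin 5) : V →+ F :=
  AddMonoidHom.mk' (Dsc D k) fun u v => sq_add D u v (good_dsc k)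

theorem AR_eq_ANN (D : Loc2 V F) (c : Fin 3) (v : V) : AR D (kk c) v = ANN D 1 c v := by
  have e : (fun y : Fin 2 → ℝ => pr (kk c) bc ((kk c : ℕ) + 3 / 2) (zz (y 0) (y 1) / 2)) =
      annF 1 c := by
    funext y j
    fin_cases c <;> fin_cases j <;> simp [pr, kk, bc, annF, th] <;> ring
  unfold AR ANN
  rw [e]

theorem ANN_add (D : Loc2 V F) (hN : Neg D) {r : ℝ} (hr : r ∈ Ioc (0 : ℝ) 1) (c : Fin 3)
    {u v : V} (hu : D.s (kk c) u = u) (hv : D.s (kk c) v = v) :
    ANN D r c (u + v) = ANN D r c u + ANN D r c v := by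
  have e : (fun y : Fin 2 → ℝ => (H931.tubeA hr c).R ![y 0, y 1, 0]) = annF r c := by
    funext y
    rw [H931.tubeA_R]
    unfold H931.mu annF
    simp
  have hI : ∀ w : V, D.s (kk c) w = w →
      IntegrableOn (fun y => pb (annF r c) (D.Phi w) y (eb 2)) strip := by
    intro w hw
    have := (H931.tubeA hr c).integrableOn hN (v := w) hw (t := 0) (by simp)
    rw [e] at this
    exact this
  unfold ANN
  rw [← integral_add (hI u hu) (hI v hv)]
  refine setIntegral_congr_fun measurableSet_strip fun y _ => ?_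
  simp [pb]

theorem AR_neg (D : Loc2 V F) (k : Fin 5) (u : V) : AR D k (-u) = -AR D k u := by
  unfold AR
  rw [← integral_neg]
  refine setIntegral_congr_fun measurableSet_strip fun y _ => ?_
  simp [pb]

theorem RT03 (D : Loc2 V F) (hT : TubeProp D) (n : V) (hn : D.s 0 n = n) :
    RT D 0 3 n = AR D 0 (D.s 3 n) - AR D 0 n := by
  have := H618.annC_14 D hT n hn
  have e : RT D 0 3 n = cubeInt (pb (fun y => pr 0 (pr 3 H618.bc (9 / 2) (zz 0 (y 1) / 2)) (3 / 2)
      (zz 0 (y 0) / 2)) (D.Phi n)) := by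
    refine sq_congr D n (funext fun y => ?_)
    funext j
    fin_cases j <;> simp [rtor, cfg, two, pr, H618.bc] <;> ring
  rw [e, this]
  rfl

theorem RT14 (D : Loc2 V F) (hT : TubeProp D) (n : V) (hn : D.s 4 n = n) :
    RT D 1 4 n = AR D 4 n - AR D 4 (D.s 1 n) := by
  have := H618.annC_25 D hT n hn
  have e : RT D 1 4 n = cubeInt (pb (fun y => pr 1 (pr 4 H618.bc (11 / 2) (zz 0 (y 1) / 2)) (5 / 2)
      (zz 0 (y 0) / 2)) (D.Phi n)) := by
    refine sq_congr D n (funext fun y => ?_)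
    funext j
    fin_cases j <;> simp [rtor, cfg, two, pr, H618.bc] <;> ring
  rw [e, this]
  rfl

theorem Hd_eq (l s : ℝ) : Hd l s = 2 * H473.hd l s := by
  unfold Hd H473.hd H473.ze
  apply Complex.ext
  · simp [zc]; ring
  · simp [zc]; ring

theorem dsc2_eq : H473.dsc2 = dsc 2 := by
  funext y j
  fin_cases j <;> simp [H473.dsc2, H473.c3, dsc, cfg, Hd_eq] <;> ring

theorem dsc3_eq : H473.dsc3 = dsc 3 := by
  funext y j
  fin_cases j <;> simp [H473.dsc3, H473.c3, dsc, cfg, Hd_eq] <;> ring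

theorem RA2_eq (D : Loc2 V F) (v : V) : H473.RA2 D v = AR D 2 v := by
  have e : (fun y : Fin 2 → ℝ => pr 2 bc (((2 : Fin 5) : ℕ) + 3 / 2) (zz (y 0) (y 1) / 2)) =
      H473.ra2 := by
    funext y j
    fin_cases j <;> simp [H473.ra2, H473.c3, pr, bc] <;> ring
  unfold H473.RA2 AR
  rw [e]

theorem RA3_eq (D : Loc2 V F) (v : V) : H473.RA3 D v = AR D 3 v := by
  have e : (fun y : Fin 2 → ℝ => pr 3 bc (((3 : Fin 5) : ℕ) + 3 / 2) (zz (y 0) (y 1) / 2)) =
      H473.ra3 := by
    funext y j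
    fin_cases j <;> simp [H473.ra3, H473.c3, pr, bc] <;> ring
  unfold H473.RA3 AR
  rw [e]

/-- **row ANN**: the passage from the cells of fixed size to the tori and annuli of size `r` -/
theorem annProp {D : Loc2 V F} (hB : Braid D) (hN : Neg D) : AnnProp D := by
  have hT := tube_prop hN
  have h1 : (1 : ℝ) ∈ Ioc (0 : ℝ) 1 := by simp
  refine annProp_of hB (DsA D) (RT D) (MM D) (fun r hr c u v => MM_add D hr c u v)
    (fun j k hjk v => phiT_round D hjk v)
    (fun v => RT_eq_TOR D (i := 0) (j := 1) (by decide) v)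
    (fun v => RT_eq_TOR D (i := 0) (j := 2) (by decide) v)
    (fun v => RT_eq_TOR D (i := 1) (j := 2) (by decide) v)
    (fun r hr i j hij v => tor_scale D hr hij v) (RT03 D hT) (RT14 D hT) ?_ ?_ ?_
    (AR_eq_ANN D) ?_ (AR_neg D)
  · intro n hn
    rw [H473.phiH_left' D hT n hn, dsc2_eq, dsc3_eq, RA2_eq, RA3_eq]
    show _ = (AR D 3 (D.s 2 (D.s 3 n)) - Dsc D 3 (D.s 2 (D.s 3 n))) - (AR D 2 n - Dsc D 2 n)
    unfold Dsc
    abel
  · intro n hn
    rw [H473.phiH_right' D hT n hn, dsc2_eq, dsc3_eq, RA2_eq, RA3_eq]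
    show _ = (AR D 3 n - Dsc D 3 n) - (AR D 2 (D.s 3 (D.s 2 n)) - Dsc D 2 (D.s 3 (D.s 2 n)))
    unfold Dsc
    abel
  · intro r hr c v hv
    rw [← H931.scaling hT hr c hv]
    -- exchange of the variables
    have key := H618.cubeInt_ex2 (fun y => -pb (mmF r c) (D.Phi v) y (eb 2))
    have hd : Differentiable ℝ (mmF r c) := (good_mmF hr c).smooth.differentiable two_ne_zero
    have e : (fun y : Fin 2 → ℝ => th fun i => ((r + y 1 * (1 - r) : ℝ) : ℂ) / 2 *
        (if i = c then zz 0 (y 0) else 1)) = fun y => mmF r c (H618.ex2 y) := by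
      funext y
      rw [H618.ex2_apply]
      rfl
    rw [e]
    unfold MM H401.sq cubeInt
    rw [← integral_neg, ← key]
    refine setIntegral_congr_fun measurableSet_Icc fun y _ => ?_
    exact H618.pb_ex2 _ (hd _)
  · intro c u v hu hv
    rw [AR_eq_ANN, AR_eq_ANN, AR_eq_ANN, ANN_add D hN h1 c hu hv]

end Vale.Agent.P273.H828
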