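import Vale.Agent.P273.H828.TubeDefs

/-!
# P273, row ANN: assembly of `AnnProp` from the pieces
-/

noncomputable section

namespace Vale.Agent.P273.H828

open Set MeasureTheory Filter Topology
open Vale.Agent.P273.H401 Vale.Agent.P273.H681

variable {V F : Type*} [AddCommGroup V] [Module ℝ V] [NormedAddCommGroup F] [NormedSpace ℝ F]

/-- the base configuration -/
def bc : C6 := ![1, 2, 3, 4, 5, 6]

/-- the round annulus of the pair `k`, `k+1` at the base -/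
def AR (D : Loc2 V F) (k : Fin 5) (v : V) : F :=
  ∫ y in strip, pb (fun y : Fin 2 → ℝ => pr k bc (k + 3 / 2) (zz (y 0) (y 1) / 2)) (D.Phi v) y
    (eb 2)

/-- the first point of the pair `c` of the theta point -/
def kk : Fin 3 → Fin 5 := ![0, 2, 4]

/-- **assembly** -/
theorem annProp_of {D : Loc2 V F} (hB : Braid D) (Ds : Fin 5 → V →+ F)
    (RT : Fin 5 → Fin 5 → V → F) (MM : ℝ → Fin 3 → V → F)
    (hMM : ∀ r ∈ Ioc (0 : ℝ) 1, ∀ (c : Fin 3) (u v : V), MM r c (u + v) = MM r c u + MM r c v)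
    (hT : ∀ j k : Fin 5, j.1 + 2 ≤ k.1 → ∀ v, phiT D j k v =
      RT j k v + Ds j (v - D.s k v) - Ds k (v - D.s j v))
    (hR02 : ∀ v, RT 0 2 v = TOR D 1 0 1 v) (hR04 : ∀ v, RT 0 4 v = TOR D 1 0 2 v)
    (hR24 : ∀ v, RT 2 4 v = TOR D 1 1 2 v)
    (hS : ∀ r ∈ Ioc (0 : ℝ) 1, ∀ i j : Fin 3, i < j → ∀ v, TOR D 1 i j v - TOR D r i j v =
      MM r j (D.s (kk i) v - v) - MM r i (D.s (kk j) v - v))
    (hR03 : ∀ n, D.s 0 n = n → RT 0 3 n = AR D 0 (D.s 3 n) - AR D 0 n)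
    (hR14 : ∀ n, D.s 4 n = n → RT 1 4 n = AR D 4 n - AR D 4 (D.s 1 n))
    (hHl : ∀ n, D.s 2 n = n → phiH D 2 3 n =
      (AR D 3 (D.s 2 (D.s 3 n)) - Ds 3 (D.s 2 (D.s 3 n))) - (AR D 2 n - Ds 2 n))
    (hHr : ∀ n, D.s 3 n = n → phiH D 2 3 n =
      (AR D 3 n - Ds 3 n) - (AR D 2 (D.s 3 (D.s 2 n)) - Ds 2 (D.s 3 (D.s 2 n))))
    (hA : ∀ r ∈ Ioc (0 : ℝ) 1, ∀ (c : Fin 3) (v : V), D.s (kk c) v = v →
      ANN D 1 c v - ANN D r c v = -MM r c v)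
    (hAR : ∀ (c : Fin 3) (v : V), AR D (kk c) v = ANN D 1 c v)
    (hadd : ∀ (c : Fin 3) (u v : V), D.s (kk c) u = u → D.s (kk c) v = v →
      AR D (kk c) (u + v) = AR D (kk c) u + AR D (kk c) v)
    (hneg : ∀ (k : Fin 5) (u : V), AR D k (-u) = -AR D k u) : AnnProp D := by
  intro Z r hr
  obtain ⟨hcomm, hbraid⟩ := hB
  set v1 := (D.s 2 Z.w13 - Z.w13) + (D.s 4 Z.w15 - Z.w15) with hv1
  set v3 := (Z.w13 - D.s 0 Z.w13) + (D.s 4 Z.w35 - Z.w35) with hv3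
  set v5 := (Z.w15 - D.s 0 Z.w15) + (Z.w35 - D.s 2 Z.w35) with hv5
  -- the boundary equations
  have e1 : D.s 3 Z.n14 = Z.n14 + -v1 := by
    have := Z.d1
    rw [← hv1] at this
    rw [← sub_eq_iff_eq_add', eq_neg_iff_add_eq_zero, add_comm]
    exact this
  have e3 : v3 = Z.n3 + D.s 3 (D.s 2 Z.n4) := by
    have := Z.d3
    rw [← hv3, sub_sub, sub_eq_zero] at this
    exact this
  have e4 : D.s 2 (D.s 3 Z.n3) = -Z.n4 := by
    have := Z.d4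
    rw [Z.inv14, sub_self, zero_add] at this
    exact eq_neg_of_add_eq_zero_left this
  have e5 : D.s 1 Z.n25 = Z.n25 + v5 := by
    have := Z.d5
    rw [← hv5] at this
    rw [← sub_eq_iff_eq_add', ← neg_sub, neg_eq_iff_add_eq_zero, add_comm]
    exact this
  -- invariance
  have i1 : D.s 0 v1 = v1 := by
    have h : v1 = Z.n14 - D.s 3 Z.n14 := by rw [e1]; abel
    rw [h, map_sub, Z.inv14, hcomm 0 3 (by decide), Z.inv14]
  have i3 : D.s 2 (D.s 3 (D.s 2 Z.n4)) = D.s 3 (D.s 2 Z.n4) := by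
    rw [hbraid 2 3 rfl, Z.inv4]
  have i3' : D.s 2 v3 = v3 := by rw [e3, map_add, Z.inv3, i3]
  have i5 : D.s 4 v5 = v5 := by
    have h : v5 = D.s 1 Z.n25 - Z.n25 := by rw [e5]; abel
    rw [h, map_sub, Z.inv25, ← hcomm 1 4 (by decide), Z.inv25]
  have i1' : D.s 0 (-v1) = -v1 := by rw [map_neg, i1]
  -- the pieces
  have t03 : phiT D 0 3 Z.n14 = -AR D 0 v1 + Ds 0 v1 := by
    rw [hT 0 3 (by decide), hR03 _ Z.inv14, Z.inv14, sub_self, map_zero, sub_zero]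
    have h : Z.n14 - D.s 3 Z.n14 = v1 := by rw [e1]; abel
    rw [h, e1, show AR D 0 (Z.n14 + -v1) = AR D 0 Z.n14 + AR D 0 (-v1) from
      hadd 0 _ _ Z.inv14 i1', hneg]
    abel
  have t14 : phiT D 1 4 Z.n25 = -AR D 4 v5 + Ds 4 v5 := by
    rw [hT 1 4 (by decide), hR14 _ Z.inv25, Z.inv25, sub_self, map_zero, add_zero]
    have h : Z.n25 - D.s 1 Z.n25 = -v5 := by rw [e5]; abel
    rw [h, e5, show AR D 4 (Z.n25 + v5) = AR D 4 Z.n25 + AR D 4 v5 from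
      hadd 2 _ _ Z.inv25 i5, map_neg]
    abel
  have th : phiH D 2 3 Z.n3 + phiH D 2 3 Z.n4 = -AR D 2 v3 + Ds 2 v3 := by
    rw [hHl _ Z.inv3, hHr _ Z.inv4, e4, hneg, e3, show AR D 2 (Z.n3 + D.s 3 (D.s 2 Z.n4)) =
      AR D 2 Z.n3 + AR D 2 (D.s 3 (D.s 2 Z.n4)) from hadd 1 _ _ Z.inv3 i3, map_add, map_neg]
    abel
  have t02 := hT 0 2 (by decide) Z.w13
  have t04 := hT 0 4 (by decide) Z.w15
  have t24 := hT 2 4 (by decide) Z.w35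
  rw [hR02] at t02
  rw [hR04] at t04
  rw [hR24] at t24
  have base : TOR D 1 0 1 Z.w13 + TOR D 1 0 2 Z.w15 + TOR D 1 1 2 Z.w35 =
      AR D 0 v1 + AR D 2 v3 + AR D 4 v5 := by
    have h := Z.zero
    rw [t02, t04, t24, t03, t14, th] at h
    have d1 : Ds 0 v1 = -(Ds 0 (Z.w13 - D.s 2 Z.w13) + Ds 0 (Z.w15 - D.s 4 Z.w15)) := by
      rw [hv1]; simp only [map_add, map_sub]; abel
    have d3 : Ds 2 v3 = Ds 2 (Z.w13 - D.s 0 Z.w13) - Ds 2 (Z.w35 - D.s 4 Z.w35) := by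
      rw [hv3]; simp only [map_add, map_sub]; abel
    have d5 : Ds 4 v5 = Ds 4 (Z.w15 - D.s 0 Z.w15) + Ds 4 (Z.w35 - D.s 2 Z.w35) := by
      rw [hv5]; simp only [map_add, map_sub]
    rw [d1, d3, d5] at h
    rw [← sub_eq_zero, ← h]
    abel
  -- the sizes
  have s01 := hS r hr 0 1 (by decide) Z.w13
  have s02 := hS r hr 0 2 (by decide) Z.w15
  have s12 := hS r hr 1 2 (by decide) Z.w35
  have a1 := hA r hr 0 v1 i1
  have a3 := hA r hr 1 v3 i3'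
  have a5 := hA r hr 2 v5 i5
  have b1 := hAR 0 v1
  have b3 := hAR 1 v3
  have b5 := hAR 2 v5
  have k0 : kk 0 = 0 := rfl
  have k1 : kk 1 = 2 := rfl
  have k2 : kk 2 = 4 := rfl
  simp only [k0, k1, k2] at s01 s02 s12 b1 b3 b5
  rw [b1, b3, b5] at base
  have hz : ∀ c, MM r c 0 = 0 := by
    intro c
    have := hMM r hr c 0 0
    rw [add_zero] at this
    exact (left_eq_add.1 this)
  have hMn : ∀ c u, MM r c (-u) = -MM r c u := by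
    intro c u
    have := hMM r hr c u (-u)
    rw [add_neg_cancel, hz] at this
    exact eq_neg_of_add_eq_zero_right this.symm
  have m0 : MM r 0 v1 = MM r 0 (D.s 2 Z.w13 - Z.w13) + MM r 0 (D.s 4 Z.w15 - Z.w15) := by
    rw [hv1, hMM r hr]
  have m1 : MM r 1 v3 = -MM r 1 (D.s 0 Z.w13 - Z.w13) + MM r 1 (D.s 4 Z.w35 - Z.w35) := by
    rw [hv3, hMM r hr, ← hMn, neg_sub]
  have m2 : MM r 2 v5 = -MM r 2 (D.s 0 Z.w15 - Z.w15) - MM r 2 (D.s 2 Z.w35 - Z.w35) := by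
    rw [hv5, hMM r hr, sub_eq_add_neg (-MM r 2 _), ← hMn, ← hMn, neg_sub, neg_sub]
  rw [m0] at a1
  rw [m1] at a3
  rw [m2] at a5
  have x01 : TOR D r 0 1 Z.w13 = TOR D 1 0 1 Z.w13 -
      (MM r 1 (D.s 0 Z.w13 - Z.w13) - MM r 0 (D.s 2 Z.w13 - Z.w13)) := by rw [← s01]; abel
  have x02 : TOR D r 0 2 Z.w15 = TOR D 1 0 2 Z.w15 -
      (MM r 2 (D.s 0 Z.w15 - Z.w15) - MM r 0 (D.s 4 Z.w15 - Z.w15)) := by rw [← s02]; abel
  have x12 : TOR D r 1 2 Z.w35 = TOR D 1 1 2 Z.w35 -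
      (MM r 2 (D.s 2 Z.w35 - Z.w35) - MM r 1 (D.s 4 Z.w35 - Z.w35)) := by rw [← s12]; abel
  have y1 : ANN D r 0 v1 = ANN D 1 0 v1 +
      (MM r 0 (D.s 2 Z.w13 - Z.w13) + MM r 0 (D.s 4 Z.w15 - Z.w15)) := by
    rw [← sub_eq_iff_eq_add', ← neg_sub, a1, neg_neg]
  have y3 : ANN D r 1 v3 = ANN D 1 1 v3 +
      (-MM r 1 (D.s 0 Z.w13 - Z.w13) + MM r 1 (D.s 4 Z.w35 - Z.w35)) := by
    rw [← sub_eq_iff_eq_add', ← neg_sub, a3, neg_neg]
  have y5 : ANN D r 2 v5 = ANN D 1 2 v5 +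
      (-MM r 2 (D.s 0 Z.w15 - Z.w15) - MM r 2 (D.s 2 Z.w35 - Z.w35)) := by
    rw [← sub_eq_iff_eq_add', ← neg_sub, a5, neg_neg]
  rw [x01, x02, x12, y1, y3, y5]
  have : ANN D 1 0 v1 = TOR D 1 0 1 Z.w13 + TOR D 1 0 2 Z.w15 + TOR D 1 1 2 Z.w35 -
      ANN D 1 1 v3 - ANN D 1 2 v5 := by rw [base]; abel
  rw [this]
  abel

end Vale.Agent.P273.H828
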