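import Vale.Agent.P273.H828.Dir3

/-!
# P273, ASY1, item (D): cost of the difference of two comparable marks

If two marks of the neck have comparable coordinates, `κ ≤ |X_j / X_i|`, then the difference of
their logarithmic derivatives is bounded by the cost, in every direction, with `C = 15 / κ`.
-/

noncomputable section

namespace Vale.Agent.P273.H828

open Set MeasureTheory Filter Topology
open Vale.Agent.P273.H681 Vale.Agent.P273.H95 Vale.Agent.P273.H879

variable {R : Region1} {m : Fin (R.n + 1)} {p : Co1 R m}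

theorem norm_lB_evec_le (hp : (wr R m).Inr p) (hy : 0 < p.2.2.1 ()) (i i' : ℕ) (d : Dir1 R m) :
    ‖lB R m i i' (evec p d)‖ ≤ 1 := by
  by_cases h : NE d
  · rw [evec_ne h]
    exact norm_lB_le i i' d
  · cases d with
    | y u => exact norm_lB_eul_le hp hy i i'
    | _ => exact absurd (by simp [NE]) h

/-- differences, `X`: for marks in this order -/
theorem lX_sub {i i' : ℕ} (h : i ≤ i') (w : Co1 R m) :
    lX R m i' w - lX R m i w = lB R m i i' w := by
  rw [lX_succ h]; ring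

theorem lY_sub {i i' : ℕ} (h : i ≤ i') (w : Co1 R m) :
    lY R m i w - lY R m i' w = lB R m i i' w := by
  rw [lY_succ h]; ring

theorem ratio_X {c : ℝ} (hc : 0 < c) {i j : L} (hi : R.nk i = true) (hj : R.nk j = true)
    (hij : R.rk i ≤ R.rk j) (p : Co1 R m) :
    Complex.exp (lB R m (R.rk i) (R.rk j) p) = Xj c p j / Xj c p i := by
  rw [Xj_ratio hi hj hij, mul_div_cancel_left₀ _ (Xj_ne hc hi p)]

theorem ratio_Y {c : ℝ} (hc : 0 < c) {i j : L} (hi : R.nk i = true) (hj : R.nk j = true)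
    (hij : R.rk i ≤ R.rk j) (p : Co1 R m) :
    Complex.exp (lB R m (R.rk i) (R.rk j) p) = Yj c p i / Yj c p j := by
  rw [Yj_ratio hi hj hij, mul_div_cancel_left₀ _ (Yj_ne hc hj p)]

/-- all directions -/
theorem lB_cost (hp : (wr R m).Inr p) (hy : 1 ≤ p.2.2.1 ()) {κ : ℝ} (hκ : 0 < κ) {i i' : ℕ}
    (h : κ ≤ ‖Complex.exp (lB R m i i' p)‖) (d : Dir1 R m) :
    ‖lB R m i i' (evec p d)‖ ≤ 15 / κ * cst p d := by
  have hy0 : 0 < p.2.2.1 () := by linarith
  have hyi : 0 ≤ (p.2.2.1 ())⁻¹ := (inv_pos.2 hy0).le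
  have h1κ : κ ≤ 1 := h.trans (norm_exp_lB_le_one hp hy0.le i i')
  have hz : ∀ (w : Co1 R m) (q : ℝ), 0 ≤ q → lB R m i i' w = 0 →
      ‖lB R m i i' w‖ ≤ 15 / κ * q := by
    intro w q hq h
    rw [h, norm_zero]
    positivity
  have hk : ∀ q : ℝ, 0 ≤ q → 1 / κ * q ≤ 15 / κ * q := fun q hq =>
    mul_le_mul_of_nonneg_right (by gcongr; norm_num) hq
  cases d with
  | u f =>
    show ‖lB R m i i' ((wr R m).vec (.u f))‖ ≤ _
    by_cases h0 : lB R m i i' ((wr R m).vec (.u f)) = 0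
    · exact hz _ _ (cst_nn hy _) h0
    · refine (norm_lB_le i i' _).trans (le_trans ?_ (hk _ (cst_nn hy _)))
      have h1 := h.trans ((moved_lB_u hp hy0.le h0).trans (exp_le_cst_u hp f))
      rw [one_div, ← inv_mul_cancel₀ hκ.ne']
      exact mul_le_mul_of_nonneg_left h1 (inv_pos.2 hκ).le
  | ph f =>
    show ‖lB R m i i' ((wr R m).vec (.ph f))‖ ≤ _
    by_cases h0 : lB R m i i' ((wr R m).vec (.ph f)) = 0
    · exact hz _ _ (cst_nn hy _) h0
    · refine (norm_lB_le i i' _).trans (le_trans ?_ (hk _ (cst_nn hy _)))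
      have h1 := h.trans ((moved_lB_ph hp hy0.le h0).trans (exp_le_cst_ph hp f))
      rw [one_div, ← inv_mul_cancel₀ hκ.ne']
      exact mul_le_mul_of_nonneg_left h1 (inv_pos.2 hκ).le
  | al u =>
    show ‖lB R m i i' ((wr R m).vec (.al ()))‖ ≤ _
    by_cases h0 : lB R m i i' ((wr R m).vec (.al ())) = 0
    · exact hz _ _ (cst_nn hy (.al ())) h0
    · refine (norm_lB_le i i' _).trans ?_
      have h1 := h.trans ((moved_lB_al hp hy0.le h0).trans (H401.Ch1.exp_ul_le hp hy))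
      have h2 : κ ≤ 15 * cst p (.al u) :=
        h1.trans (mul_le_mul_of_nonneg_left (inv_le_sqrt' hy) (by norm_num))
      rw [div_mul_eq_mul_div, le_div_iff₀ hκ, one_mul]
      exact h2
  | y u =>
    show ‖lB R m i i' ((wr R m).eul p ())‖ ≤ 15 / κ * (p.2.2.1 ())⁻¹
    rw [lB_eul i i' hy0.ne', Complex.norm_real, Real.norm_eq_abs, abs_mul, abs_of_nonneg hyi]
    have hpos : 0 < ‖Complex.exp (lB R m i i' p)‖ := lt_of_lt_of_le hκ h
    have h1 := norm_exp_lB_le_one hp hy0.le i i'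
    have h2 : |Real.log ‖Complex.exp (lB R m i i' p)‖| ≤ 1 / κ := by
      rw [abs_of_nonpos (Real.log_nonpos hpos.le h1)]
      have h3 := Real.one_sub_inv_le_log_of_pos hpos
      have h4 : (‖Complex.exp (lB R m i i' p)‖)⁻¹ ≤ 1 / κ := by
        rw [one_div]; exact inv_anti₀ hκ h
      linarith
    calc (p.2.2.1 ())⁻¹ * |Real.log ‖Complex.exp (lB R m i i' p)‖|
        ≤ (p.2.2.1 ())⁻¹ * (1 / κ) := mul_le_mul_of_nonneg_left h2 hyi
      _ = 1 / κ * (p.2.2.1 ())⁻¹ := by ring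
      _ ≤ _ := hk _ hyi
  | re a => exact hz _ _ (cst_nn hy (.re a)) (lB_re _ _ a)
  | im a => exact hz _ _ (cst_nn hy (.im a)) (lB_im _ _ a)

/-- all directions except the Euler direction, with the square of the cost -/
theorem lB_cost_sq (hp : (wr R m).Inr p) (hy : 1 ≤ p.2.2.1 ()) {κ : ℝ} (hκ : 0 < κ) {i i' : ℕ}
    (h : κ ≤ ‖Complex.exp (lB R m i i' p)‖) {d : Dir1 R m} (hd : NE d) :
    ‖lB R m i i' (evec p d)‖ ≤ 15 / κ * cst p d ^ 2 := by
  have hy0 : 0 < p.2.2.1 () := by linarith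
  have hz : ∀ (w : Co1 R m) (q : ℝ), 0 ≤ q → lB R m i i' w = 0 →
      ‖lB R m i i' w‖ ≤ 15 / κ * q := by
    intro w q hq h
    rw [h, norm_zero]
    positivity
  have hk : ∀ q : ℝ, 0 ≤ q → 1 / κ * q ≤ 15 / κ * q := fun q hq =>
    mul_le_mul_of_nonneg_right (by gcongr; norm_num) hq
  have hsq : ∀ u : ℝ, Real.exp (-u) ≤ Real.sqrt (max (Real.exp (-u)) (p.2.2.1 ())⁻¹) ^ 2 := by
    intro u
    rw [Real.sq_sqrt ((Real.exp_pos _).le.trans (le_max_left _ _))]
    exact le_max_left _ _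
  cases d with
  | u f =>
    show ‖lB R m i i' ((wr R m).vec (.u f))‖ ≤ _
    by_cases h0 : lB R m i i' ((wr R m).vec (.u f)) = 0
    · exact hz _ _ (sq_nonneg _) h0
    · refine (norm_lB_le i i' _).trans (le_trans ?_ (hk _ (sq_nonneg _)))
      have h1 := h.trans ((moved_lB_u hp hy0.le h0).trans (hsq _))
      rw [one_div, ← inv_mul_cancel₀ hκ.ne']
      exact mul_le_mul_of_nonneg_left h1 (inv_pos.2 hκ).le
  | ph f =>
    show ‖lB R m i i' ((wr R m).vec (.ph f))‖ ≤ _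
    by_cases h0 : lB R m i i' ((wr R m).vec (.ph f)) = 0
    · exact hz _ _ (sq_nonneg _) h0
    · refine (norm_lB_le i i' _).trans (le_trans ?_ (hk _ (sq_nonneg _)))
      have h1 := h.trans ((moved_lB_ph hp hy0.le h0).trans (hsq _))
      rw [one_div, ← inv_mul_cancel₀ hκ.ne']
      exact mul_le_mul_of_nonneg_left h1 (inv_pos.2 hκ).le
  | al u =>
    show ‖lB R m i i' ((wr R m).vec (.al ()))‖ ≤ 15 / κ * Real.sqrt (p.2.2.1 ())⁻¹ ^ 2
    rw [Real.sq_sqrt (inv_nonneg.2 hy0.le)]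
    by_cases h0 : lB R m i i' ((wr R m).vec (.al ())) = 0
    · exact hz _ _ (inv_nonneg.2 hy0.le) h0
    · refine (norm_lB_le i i' _).trans ?_
      have h1 := h.trans ((moved_lB_al hp hy0.le h0).trans (H401.Ch1.exp_ul_le hp hy))
      rw [div_mul_eq_mul_div, le_div_iff₀ hκ, one_mul]
      exact h1
  | y u => exact absurd hd (by simp [NE])
  | re a => exact hz _ _ (sq_nonneg _) (lB_re _ _ a)
  | im a => exact hz _ _ (sq_nonneg _) (lB_im _ _ a)

end Vale.Agent.P273.H828
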