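import Vale.Agent.P273.H681.Loc

/-!
# P273, row ANN: the space `XX`, the moving lemma
-/

open Set MeasureTheory Filter Topology
open Vale.Agent.P273.H401 Vale.Agent.P273.H681

namespace Vale.Agent.P273.H828

theorem isOpen_XX : IsOpen XX := by
  have : XX = ⋂ i : Fin 6, ⋂ j : Fin 6, ⋂ (_ : i < j),
      {b : C6 | (b i).re = (b j).re → (b j).im < (b i).im} := by
    ext b; simp [XX]
  rw [this]
  refine isOpen_iInter_of_finite fun i => isOpen_iInter_of_finite fun j =>
    isOpen_iInter_of_finite fun _ => ?_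
  have h : {b : C6 | (b i).re = (b j).re → (b j).im < (b i).im} =
      ({b : C6 | (b i).re = (b j).re} ∩ {b : C6 | (b i).im ≤ (b j).im})ᶜ := by
    ext b
    simp only [Set.mem_ofPred_eq, mem_compl_iff, mem_inter_iff, not_and, not_le]
  rw [h]
  refine (IsClosed.inter ?_ ?_).isOpen_compl
  · exact isClosed_eq (by fun_prop) (by fun_prop)
  · exact isClosed_le (by fun_prop) (by fun_prop)

@[simp] theorem swL_apply (i : Fin 5) (b : C6) (k : Fin 6) : swL i b k = b (sw i k) := rfl

@[simp] theorem sw_sw (i : Fin 5) (k : Fin 6) : sw i (sw i k) = k := Equiv.swap_apply_self _ _ _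

@[simp] theorem swL_swL (i : Fin 5) (b : C6) : swL i (swL i b) = b := by
  funext k; simp

@[simp] theorem sw_left (i : Fin 5) : sw i i.castSucc = i.succ := Equiv.swap_apply_left _ _

@[simp] theorem sw_right (i : Fin 5) : sw i i.succ = i.castSucc := Equiv.swap_apply_right _ _

theorem sw_of_ne {i : Fin 5} {k : Fin 6} (h1 : k ≠ i.castSucc) (h2 : k ≠ i.succ) : sw i k = k :=
  Equiv.swap_apply_of_ne_of_ne h1 h2

/-- relabelling keeps `XX` when the two points have been exchanged -/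
theorem swL_mem {i : Fin 5} {b : C6} (hb : b ∈ XX) (h : (b i.succ).re ≠ (b i.castSucc).re) :
    swL i b ∈ XX := by
  intro k l hkl hre
  simp only [swL_apply] at hre ⊢
  have hlt : ∀ k l : Fin 6, k < l → (b (sw i k)).re = (b (sw i l)).re → sw i k < sw i l := by
    intro k l hkl hre
    by_contra hcon
    have hne : sw i k ≠ sw i l := fun h => hkl.ne ((sw i).injective h)
    have hlt : sw i l < sw i k := lt_of_le_of_ne (not_lt.1 hcon) hne.symm
    -- only the pair itself changes its order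
    have : k = i.castSucc ∧ l = i.succ := by
      have h0 : i.castSucc.1 + 1 = i.succ.1 := by simp
      have e1 : sw i k = if k = i.castSucc then i.succ else if k = i.succ then i.castSucc else k :=
        Equiv.swap_apply_def _ _ _
      have e2 : sw i l = if l = i.castSucc then i.succ else if l = i.succ then i.castSucc else l :=
        Equiv.swap_apply_def _ _ _
      rw [e1, e2] at hlt
      simp only [Fin.ext_iff, Fin.lt_def] at *
      split_ifs at hlt <;> simp_all <;> omega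
    rw [this.1, this.2, sw_left, sw_right] at hre
    exact h hre
  exact hb _ _ (hlt k l hkl hre) hre

section Move

variable {E : Type*} [NormedAddCommGroup E] [NormedSpace ℝ E] {F : Type*} [NormedAddCommGroup F]
  [NormedSpace ℝ F]

/-- the box `[0, Λ] × [0,1]^2` -/
noncomputable def sc (Λ : ℝ) : (Fin 3 → ℝ) →L[ℝ] (Fin 3 → ℝ) :=
  ContinuousLinearMap.pi fun k => (if k = 0 then Λ else 1) • ContinuousLinearMap.proj k

theorem sc_apply (Λ : ℝ) (x : Fin 3 → ℝ) : sc Λ x = ![Λ * x 0, x 1, x 2] := by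
  funext k
  fin_cases k <;> simp [sc]

/-- the **moving lemma** for a family over `[0,∞) × [0,1] × [0,1]`: length, angle, time. The
integral over the outer face is the difference of the two annulus integrals. -/
theorem move {ω : E → E [⋀^Fin 2]→L[ℝ] F} {W : Set E} (hW : IsOpen W)
    (hω : ContDiffOn ℝ 1 ω W) (hcl : ∀ b ∈ W, extDeriv ω b = 0)
    {R : (Fin 3 → ℝ) → E} {U : Set (Fin 3 → ℝ)} (hU : IsOpen U)
    (hI : ∀ x : Fin 3 → ℝ, 0 ≤ x 0 → x 1 ∈ Icc (0 : ℝ) 1 → x 2 ∈ Icc (0 : ℝ) 1 → x ∈ U)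
    (hR : ContDiffOn ℝ 2 R U) (hm : MapsTo R U W)
    (hth : ∀ᶠ Λ in atTop, cubeInt (pb (fun y : Fin 2 → ℝ => R ![Λ * y 0, 1, y 1]) ω) =
      cubeInt (pb (fun y : Fin 2 → ℝ => R ![Λ * y 0, 0, y 1]) ω))
    (h2 : Tendsto (fun Λ : ℝ => cubeInt (pb (fun y : Fin 2 → ℝ => R ![Λ, y 0, y 1]) ω)) atTop
      (𝓝 0)) {A0 A1 : F}
    (hA0 : Tendsto (fun Λ : ℝ => cubeInt (pb (fun y : Fin 2 → ℝ => R ![Λ * y 0, y 1, 0]) ω)) atTop
      (𝓝 A0))
    (hA1 : Tendsto (fun Λ : ℝ => cubeInt (pb (fun y : Fin 2 → ℝ => R ![Λ * y 0, y 1, 1]) ω)) atTop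
      (𝓝 A1)) :
    cubeInt (pb (fun y : Fin 2 → ℝ => R ![0, y 0, y 1]) ω) = A1 - A0 := by
  have key : ∀ᶠ Λ : ℝ in atTop,
      cubeInt (pb (fun y : Fin 2 → ℝ => R ![Λ, y 0, y 1]) ω) -
        cubeInt (pb (fun y : Fin 2 → ℝ => R ![0, y 0, y 1]) ω) +
      (cubeInt (pb (fun y : Fin 2 → ℝ => R ![Λ * y 0, y 1, 1]) ω) -
        cubeInt (pb (fun y : Fin 2 → ℝ => R ![Λ * y 0, y 1, 0]) ω)) = 0 := by
    filter_upwards [hth, eventually_gt_atTop 0] with Λ h1 hΛ
    have hst := stokes_sing (n := 2) (σ := fun x => R (sc Λ x)) (ω := ω)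
      (U := (sc Λ) ⁻¹' U) (W := W) (hU.preimage (sc Λ).continuous)
      (fun x hx => by
        show sc Λ x ∈ U
        rw [sc_apply]
        refine hI _ ?_ ?_ ?_
        · exact mul_nonneg hΛ.le (hx.1 0)
        · exact ⟨hx.1 1, hx.2 1⟩
        · exact ⟨hx.1 2, hx.2 2⟩) hW
      (hR.comp (sc Λ).contDiff.contDiffOn fun x hx => hx) hω (fun x hx => hm hx)
    have h0 : cubeInt (pb (fun x => R (sc Λ x)) (extDeriv ω)) = 0 := by
      unfold cubeInt
      rw [setIntegral_congr_fun (g := fun _ => (0 : F)) measurableSet_Icc ?_]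
      · simp
      intro x hx
      have : extDeriv ω (R (sc Λ x)) = 0 := by
        apply hcl
        apply hm
        rw [sc_apply]
        exact hI _ (mul_nonneg hΛ.le (hx.1 0)) ⟨hx.1 1, hx.2 1⟩ ⟨hx.1 2, hx.2 2⟩
      simp [pb, this]
    rw [h0] at hst
    have e0 : ∀ t : ℝ, (fun y : Fin 2 → ℝ => R (sc Λ (face 0 t y))) =
        fun y => R ![Λ * t, y 0, y 1] := by
      intro t; funext y
      rw [sc_apply]
      congr 1
    have e1 : ∀ t : ℝ, (fun y : Fin 2 → ℝ => R (sc Λ (face 1 t y))) =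
        fun y => R ![Λ * y 0, t, y 1] := by
      intro t; funext y
      rw [sc_apply]
      congr 1
    have e2 : ∀ t : ℝ, (fun y : Fin 2 → ℝ => R (sc Λ (face 2 t y))) =
        fun y => R ![Λ * y 0, y 1, t] := by
      intro t; funext y
      rw [sc_apply]
      congr 1
    rw [Fin.sum_univ_three, e0, e0, e1, e1, e2, e2] at hst
    simp only [Fin.val_zero, pow_zero, one_smul, Fin.val_one, pow_one, Fin.val_two, mul_one,
      mul_zero] at hst
    rw [h1, sub_self, smul_zero, add_zero] at hst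
    have : ((-1 : ℝ) ^ 2) = 1 := by norm_num
    rw [this, one_smul] at hst
    exact hst.symm
  have lim := (h2.sub_const (cubeInt (pb (fun y : Fin 2 → ℝ => R ![0, y 0, y 1]) ω))).add
    (hA1.sub hA0)
  have : (0 : F) - cubeInt (pb (fun y : Fin 2 → ℝ => R ![0, y 0, y 1]) ω) + (A1 - A0) = 0 :=
    tendsto_nhds_unique lim (tendsto_const_nhds.congr' (key.mono fun _ h => h.symm))
  rw [zero_sub, neg_add_eq_zero] at this
  exact this

end Move

end Vale.Agent.P273.H828
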