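import Vale.Agent.P273.H828.Dir2

/-!
# P273, ASY1, item (D): the costs of the six kinds of directions

All bounds in terms of `cst` (OneNode) for a mark in the neck and for a mark on the core, in the
three types of `NeckO` / `CoreO`.
-/

noncomputable section

namespace Vale.Agent.P273.H828

open Set MeasureTheory Filter Topology
open Vale.Agent.P273.H681 Vale.Agent.P273.H95 Vale.Agent.P273.H879

variable {R : Region1} {m : Fin (R.n + 1)} {p : Co1 R m}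

theorem cst_nn (hy : 1 ≤ p.2.2.1 ()) (d : Dir1 R m) : 0 ≤ cst p d :=
  H401.Ch1.cst_nonneg (by linarith) d

/-- `x log x` is bounded -/
theorem mul_abs_log_le {x : ℝ} (h0 : 0 < x) (h1 : x ≤ 1) : x * |Real.log x| ≤ 1 := by
  have h2 : Real.log x ≤ 0 := Real.log_nonpos h0.le h1
  rw [abs_of_nonpos h2]
  have h3 := Real.one_sub_inv_le_log_of_pos h0
  have h4 : x * -Real.log x ≤ x * (x⁻¹ - 1) := mul_le_mul_of_nonneg_left (by linarith) h0.le
  have h5 : x * (x⁻¹ - 1) = 1 - x := by field_simp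
  linarith

/-- Euler direction: size times logarithmic derivative -/
theorem eul_T1 {c x y : ℝ} (hc : 0 < c) (hy : 0 < y) (hx0 : 0 < x) (hx : x ≤ c)
    (hl : y⁻¹ * |Real.log (x / c)| ≤ 1) :
    (x + y⁻¹) * (y⁻¹ * |Real.log (x / c)|) ≤ (c + 1) * y⁻¹ := by
  have h1 : x / c * |Real.log (x / c)| ≤ 1 :=
    mul_abs_log_le (div_pos hx0 hc) ((div_le_one hc).2 hx)
  have hyi : 0 < y⁻¹ := inv_pos.2 hy
  have h2 : x * |Real.log (x / c)| ≤ c := by
    have : x * |Real.log (x / c)| = c * (x / c * |Real.log (x / c)|) := by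
      field_simp
    rw [this]
    exact mul_le_of_le_one_right hc.le h1
  calc (x + y⁻¹) * (y⁻¹ * |Real.log (x / c)|)
      = y⁻¹ * (x * |Real.log (x / c)|) + y⁻¹ * (y⁻¹ * |Real.log (x / c)|) := by ring
    _ ≤ y⁻¹ * c + y⁻¹ * 1 := add_le_add (mul_le_mul_of_nonneg_left h2 hyi.le)
        (mul_le_mul_of_nonneg_left hl hyi.le)
    _ = (c + 1) * y⁻¹ := by ring

theorem Xj_ne {c : ℝ} (hc : 0 < c) {j : L} (hj : R.nk j = true) (p : Co1 R m) : Xj c p j ≠ 0 := by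
  rw [Xj_eq hj]
  exact mul_ne_zero (by exact_mod_cast hc.ne') (Complex.exp_ne_zero _)

theorem Yj_ne {c : ℝ} (hc : 0 < c) {j : L} (hj : R.nk j = true) (p : Co1 R m) : Yj c p j ≠ 0 := by
  rw [Yj_eq hj]
  exact mul_ne_zero (by exact_mod_cast hc.ne') (Complex.exp_ne_zero _)

/-- `X` coordinate, all directions -/
theorem X_T1 (hp : (wr R m).Inr p) (hy : 1 ≤ p.2.2.1 ()) {c : ℝ} (hc : 0 < c) {j : L}
    (hj : R.nk j = true) (d : Dir1 R m) :
    (‖Xj c p j‖ + (p.2.2.1 ())⁻¹) * ‖lX R m (R.rk j) (evec p d)‖ ≤ (15 * c + 1) * cst p d := by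
  have hy0 : 0 < p.2.2.1 () := by linarith
  have hyi : 0 ≤ (p.2.2.1 ())⁻¹ := (inv_pos.2 hy0).le
  have h15 : ∀ q : ℝ, 0 ≤ q → (c + 1) * q ≤ (15 * c + 1) * q := fun q hq =>
    mul_le_mul_of_nonneg_right (by linarith) hq
  have hz : ∀ (w : Co1 R m) (q : ℝ), 0 ≤ q → lX R m (R.rk j) w = 0 →
      (‖Xj c p j‖ + (p.2.2.1 ())⁻¹) * ‖lX R m (R.rk j) w‖ ≤ (15 * c + 1) * q := by
    intro w q hq h
    rw [h, norm_zero, mul_zero]
    positivity
  cases d with
  | u f =>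
    refine (coord_T1 hc.le (fun h => ?_) (norm_nonneg _) (norm_lX_le _ (.u f)) (cst_nn hy _)
      ((inv_le_sqrt' hy).trans (sqrt_inv_le_cst_u f)) hyi).trans (h15 _ (cst_nn hy _))
    exact ((moved_u hp hy0.le hc hj f (lX_u_ne (norm_ne_zero_iff.1 h))).1).trans
      (mul_le_mul_of_nonneg_left (exp_le_cst_u hp f) hc.le)
  | ph f =>
    refine (coord_T1 hc.le (fun h => ?_) (norm_nonneg _) (norm_lX_le _ (.ph f)) (cst_nn hy _)
      ((inv_le_sqrt' hy).trans (sqrt_inv_le_cst_ph f)) hyi).trans (h15 _ (cst_nn hy _))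
    exact ((moved_u hp hy0.le hc hj f (lX_ph_ne (norm_ne_zero_iff.1 h))).1).trans
      (mul_le_mul_of_nonneg_left (exp_le_cst_ph hp f) hc.le)
  | al u =>
    refine coord_T1 (c := 15 * c) (q := Real.sqrt (p.2.2.1 ())⁻¹) (by positivity) (fun h => ?_)
      (norm_nonneg _) (norm_lX_le _ (.al ())) (Real.sqrt_nonneg _) (inv_le_sqrt' hy) hyi
    refine ((moved_al hp hy0.le hc hj).1 (norm_ne_zero_iff.1 h)).trans ?_
    calc c * Real.exp (-(wr R m).ul p ()) ≤ c * (15 * (p.2.2.1 ())⁻¹) :=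
          mul_le_mul_of_nonneg_left (H401.Ch1.exp_ul_le hp hy) hc.le
      _ ≤ 15 * c * Real.sqrt (p.2.2.1 ())⁻¹ := by
          have := mul_le_mul_of_nonneg_left (inv_le_sqrt' hy) (by positivity : 0 ≤ 15 * c)
          linarith
  | y u =>
    show (‖Xj c p j‖ + (p.2.2.1 ())⁻¹) * ‖lX R m (R.rk j) ((wr R m).eul p ())‖ ≤
      (15 * c + 1) * (p.2.2.1 ())⁻¹
    have hl := norm_lX_eul_le hp hy0 (R.rk j)
    rw [lX_eul hc hj hy0.ne', Complex.norm_real, Real.norm_eq_abs, abs_mul, abs_of_nonneg hyi]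
      at hl ⊢
    exact (eul_T1 hc hy0 (norm_pos_iff.2 (Xj_ne hc hj p)) (norm_Xj_le hp hy0.le hc hj) hl).trans
      (h15 _ hyi)
  | re a => exact hz _ _ (cst_nn hy (.re a)) (lX_re _ a)
  | im a => exact hz _ _ (cst_nn hy (.im a)) (lX_im _ a)

/-- `Y` coordinate, all directions -/
theorem Y_T1 (hp : (wr R m).Inr p) (hy : 1 ≤ p.2.2.1 ()) {c : ℝ} (hc : 0 < c) {j : L}
    (hj : R.nk j = true) (d : Dir1 R m) :
    (‖Yj c p j‖ + (p.2.2.1 ())⁻¹) * ‖lY R m (R.rk j) (evec p d)‖ ≤ (15 * c + 1) * cst p d := by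
  have hy0 : 0 < p.2.2.1 () := by linarith
  have hyi : 0 ≤ (p.2.2.1 ())⁻¹ := (inv_pos.2 hy0).le
  have h15 : ∀ q : ℝ, 0 ≤ q → (c + 1) * q ≤ (15 * c + 1) * q := fun q hq =>
    mul_le_mul_of_nonneg_right (by linarith) hq
  have hz : ∀ (w : Co1 R m) (q : ℝ), 0 ≤ q → lY R m (R.rk j) w = 0 →
      (‖Yj c p j‖ + (p.2.2.1 ())⁻¹) * ‖lY R m (R.rk j) w‖ ≤ (15 * c + 1) * q := by
    intro w q hq h
    rw [h, norm_zero, mul_zero]
    positivity
  cases d with
  | u f =>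
    refine (coord_T1 hc.le (fun h => ?_) (norm_nonneg _) (norm_lY_le _ (.u f)) (cst_nn hy _)
      ((inv_le_sqrt' hy).trans (sqrt_inv_le_cst_u f)) hyi).trans (h15 _ (cst_nn hy _))
    have h' : lX R m (R.rk j) ((wr R m).vec (.u f)) ≠ 0 := by
      intro h0
      apply h
      show ‖lY R m (R.rk j) ((wr R m).vec (.u f))‖ = 0
      rw [lY_u_eq, h0, neg_zero, norm_zero]
    exact ((moved_u hp hy0.le hc hj f (lX_u_ne h')).2).trans
      (mul_le_mul_of_nonneg_left (exp_le_cst_u hp f) hc.le)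
  | ph f =>
    refine (coord_T1 hc.le (fun h => ?_) (norm_nonneg _) (norm_lY_le _ (.ph f)) (cst_nn hy _)
      ((inv_le_sqrt' hy).trans (sqrt_inv_le_cst_ph f)) hyi).trans (h15 _ (cst_nn hy _))
    have h' : lX R m (R.rk j) ((wr R m).vec (.ph f)) ≠ 0 := by
      intro h0
      apply h
      show ‖lY R m (R.rk j) ((wr R m).vec (.ph f))‖ = 0
      rw [lY_ph_eq, h0, neg_zero, norm_zero]
    exact ((moved_u hp hy0.le hc hj f (lX_ph_ne h')).2).trans
      (mul_le_mul_of_nonneg_left (exp_le_cst_ph hp f) hc.le)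
  | al u =>
    refine coord_T1 (c := 15 * c) (q := Real.sqrt (p.2.2.1 ())⁻¹) (by positivity) (fun h => ?_)
      (norm_nonneg _) (norm_lY_le _ (.al ())) (Real.sqrt_nonneg _) (inv_le_sqrt' hy) hyi
    refine ((moved_al hp hy0.le hc hj).2 (norm_ne_zero_iff.1 h)).trans ?_
    calc c * Real.exp (-(wr R m).ul p ()) ≤ c * (15 * (p.2.2.1 ())⁻¹) :=
          mul_le_mul_of_nonneg_left (H401.Ch1.exp_ul_le hp hy) hc.le
      _ ≤ 15 * c * Real.sqrt (p.2.2.1 ())⁻¹ := by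
          have := mul_le_mul_of_nonneg_left (inv_le_sqrt' hy) (by positivity : 0 ≤ 15 * c)
          linarith
  | y u =>
    show (‖Yj c p j‖ + (p.2.2.1 ())⁻¹) * ‖lY R m (R.rk j) ((wr R m).eul p ())‖ ≤
      (15 * c + 1) * (p.2.2.1 ())⁻¹
    have hl := norm_lY_eul_le hp hy0 (R.rk j)
    rw [lY_eul hc hj hy0.ne', Complex.norm_real, Real.norm_eq_abs, abs_mul, abs_of_nonneg hyi]
      at hl ⊢
    exact (eul_T1 hc hy0 (norm_pos_iff.2 (Yj_ne hc hj p)) (norm_Yj_le hp hy0.le hc hj) hl).trans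
      (h15 _ hyi)
  | re a => exact hz _ _ (cst_nn hy (.re a)) (lY_re _ a)
  | im a => exact hz _ _ (cst_nn hy (.im a)) (lY_im _ a)

/-- **neck, type T1, all directions** -/
theorem neck_T1 (hp : (wr R m).Inr p) (hy : 1 ≤ p.2.2.1 ()) {c : ℝ} (hc : 0 < c) {j : L}
    (hj : R.nk j = true) (k : Fin 5) (d : Dir1 R m) :
    ‖qb k (evec p d)‖ + (‖Xj c p j‖ + (p.2.2.1 ())⁻¹) * ‖lX R m (R.rk j) (evec p d)‖ +
      (‖Yj c p j‖ + (p.2.2.1 ())⁻¹) * ‖lY R m (R.rk j) (evec p d)‖ ≤ (3 + 30 * c) * cst p d := by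
  have h1 := norm_qb_evec_le k hy d
  have h2 := X_T1 hp hy hc hj d
  have h3 := Y_T1 hp hy hc hj d
  calc _ ≤ cst p d + (15 * c + 1) * cst p d + (15 * c + 1) * cst p d := by gcongr
    _ = (3 + 30 * c) * cst p d := by ring

/-- **core, type T1, all directions** -/
theorem core_T1 (hy : 1 ≤ p.2.2.1 ()) (k : Fin 5) (a : R.Cm) (d : Dir1 R m) :
    ‖qb k (evec p d)‖ + ‖(evec p d).2.2.2.2 (Sum.inl a)‖ +
      (p.2.2.1 ())⁻¹ * ‖lam R m (evec p d) / 2‖ ≤ 2 * cst p d := by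
  have hy0 : 0 < p.2.2.1 () := by linarith
  have hyi : 0 < (p.2.2.1 ())⁻¹ := inv_pos.2 hy0
  have h1 := norm_qb_evec_le k hy d
  have h0 := cst_nn hy d
  cases d with
  | u f =>
    have e1 : (evec p (.u f)).2.2.2.2 (Sum.inl a) = 0 := by simp [evec, H732.Reg.vec]
    have e2 : lam R m (evec p (.u f)) = 0 := lam_u f
    rw [e1, e2]
    simp only [norm_zero, zero_div, mul_zero, add_zero]
    linarith
  | ph f =>
    have e1 : (evec p (.ph f)).2.2.2.2 (Sum.inl a) = 0 := by simp [evec, H732.Reg.vec]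
    have e2 : lam R m (evec p (.ph f)) = 0 := lam_ph f
    rw [e1, e2]
    simp only [norm_zero, zero_div, mul_zero, add_zero]
    linarith
  | al u =>
    have e1 : (evec p (.al u)).2.2.2.2 (Sum.inl a) = 0 := by simp [evec, H732.Reg.vec]
    have e2 : lam R m (evec p (.al u)) = Complex.I := lam_al
    have e3 : ‖qb k (evec p (.al u))‖ = 0 := by
      show ‖qb k ((wr R m).vec (.al ()))‖ = 0
      rw [qb_al, norm_zero]
    rw [e1, e2, e3, norm_div, Complex.norm_I, norm_zero]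
    show 0 + 0 + (p.2.2.1 ())⁻¹ * (1 / ‖(2 : ℂ)‖) ≤ 2 * Real.sqrt (p.2.2.1 ())⁻¹
    have := inv_le_sqrt' hy
    simp only [Complex.norm_ofNat]
    linarith
  | y u =>
    have e1 : (evec p (.y u)).2.2.2.2 (Sum.inl a) = 0 := by simp [evec, H732.Reg.eul]
    have e2 : lam R m (evec p (.y u)) = -1 := lam_y p
    have e3 : ‖qb k (evec p (.y u))‖ = 0 := by
      show ‖qb k ((wr R m).eul p ())‖ = 0
      rw [qb_y, norm_zero]
    rw [e1, e2, e3, norm_div, norm_neg, norm_one, norm_zero]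
    show 0 + 0 + (p.2.2.1 ())⁻¹ * (1 / ‖(2 : ℂ)‖) ≤ 2 * (p.2.2.1 ())⁻¹
    simp only [Complex.norm_ofNat]
    linarith
  | re b =>
    have e1 : ‖(evec p (.re b)).2.2.2.2 (Sum.inl a)‖ ≤ 1 := norm_single_le _ _ _ (by simp)
    have e2 : lam R m (evec p (.re b)) = 0 := lam_re b
    rw [e2]
    simp only [norm_zero, zero_div, mul_zero, add_zero]
    have e3 : cst p (.re b) = 1 := rfl
    rw [e3] at h1 ⊢
    linarith
  | im b =>
    have e1 : ‖(evec p (.im b)).2.2.2.2 (Sum.inl a)‖ ≤ 1 := norm_single_le _ _ _ (by simp)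
    have e2 : lam R m (evec p (.im b)) = 0 := lam_im b
    rw [e2]
    simp only [norm_zero, zero_div, mul_zero, add_zero]
    have e3 : cst p (.im b) = 1 := rfl
    rw [e3] at h1 ⊢
    linarith

theorem one_le_sqrt {y : ℝ} (hy : 1 ≤ y) : 1 ≤ Real.sqrt y := by
  rw [Real.one_le_sqrt]; exact hy

/-- the imaginary part of `lam` vanishes except in the direction `al` -/
theorem im_lam_le (hy : 1 ≤ p.2.2.1 ()) (d : Dir1 R m) :
    |(lam R m (evec p d) / 2).im| ≤ Real.sqrt (p.2.2.1 ()) * cst p d := by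
  have h0 := mul_nonneg (Real.sqrt_nonneg (p.2.2.1 ())) (cst_nn hy d)
  cases d with
  | u f =>
    have e2 : lam R m (evec p (.u f)) = 0 := lam_u f
    rw [e2]; simpa using h0
  | ph f =>
    have e2 : lam R m (evec p (.ph f)) = 0 := lam_ph f
    rw [e2]; simpa using h0
  | al u =>
    have e2 : lam R m (evec p (.al u)) = Complex.I := lam_al
    have h1 := one_le_sqrt_mul_cst (d := .al u) hy trivial
    rw [e2]
    have e3 : (Complex.I / 2).im = 1 / 2 := by simp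
    rw [e3, abs_of_pos (by norm_num : (0 : ℝ) < 1 / 2)]
    linarith
  | y u =>
    have e2 : lam R m (evec p (.y u)) = -1 := lam_y p
    rw [e2]
    have e3 : ((-1 : ℂ) / 2).im = 0 := by simp
    rw [e3, abs_zero]
    exact h0
  | re b =>
    have e2 : lam R m (evec p (.re b)) = 0 := lam_re b
    rw [e2]; simpa using h0
  | im b =>
    have e2 : lam R m (evec p (.im b)) = 0 := lam_im b
    rw [e2]; simpa using h0

/-- **core, type T0, all directions** -/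
theorem core_T0 (hy : 1 ≤ p.2.2.1 ()) (k : Fin 5) (a : R.Cm) (d : Dir1 R m) :
    ‖qb k (evec p d)‖ + ‖(evec p d).2.2.2.2 (Sum.inl a)‖ +
      (p.2.2.1 ())⁻¹ * ‖lam R m (evec p d) / 2‖ + |(lam R m (evec p d) / 2).im| ≤
      3 * (Real.sqrt (p.2.2.1 ()) * cst p d) := by
  have h1 := core_T1 hy k a d
  have h2 := im_lam_le hy d
  have h3 : cst p d ≤ Real.sqrt (p.2.2.1 ()) * cst p d :=
    le_mul_of_one_le_left (cst_nn hy d) (one_le_sqrt hy)
  linarith

/-- `1/y ≤ 1/sqrt y` -/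
theorem inv_le_inv_sqrt {y : ℝ} (hy : 1 ≤ y) : y⁻¹ ≤ (Real.sqrt y)⁻¹ := by
  rw [inv_sqrt_eq]; exact inv_le_sqrt' hy

/-- **core, type T2, all directions** -/
theorem core_T2 (hy : 1 ≤ p.2.2.1 ()) (k : Fin 5) (a : R.Cm) (d : Dir1 R m) :
    (p.2.2.1 ())⁻¹ * (‖qb k (evec p d)‖ + ‖(evec p d).2.2.2.2 (Sum.inl a)‖ +
      (p.2.2.1 ())⁻¹ * ‖lam R m (evec p d) / 2‖) ≤
      2 * ((Real.sqrt (p.2.2.1 ()))⁻¹ * cst p d) := by
  have h1 := core_T1 hy k a d
  have h2 := inv_le_inv_sqrt hy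
  have h0 := cst_nn hy d
  have hy0 : 0 ≤ (p.2.2.1 ())⁻¹ := inv_nonneg.2 (by linarith)
  calc _ ≤ (p.2.2.1 ())⁻¹ * (2 * cst p d) := mul_le_mul_of_nonneg_left h1 hy0
    _ ≤ (Real.sqrt (p.2.2.1 ()))⁻¹ * (2 * cst p d) :=
        mul_le_mul_of_nonneg_right h2 (by linarith)
    _ = _ := by ring

end Vale.Agent.P273.H828
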