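import Vale.Agent.P273.H828.FamMem
import Vale.Agent.P273.H879.OneNode

/-!
# P273, NEG: the calculus end of `NegOf`
-/

noncomputable section

namespace Vale.Agent.P273.H828

open Set MeasureTheory Filter Topology
open Vale.Agent.P273.H681 Vale.Agent.P273.H95 Vale.Agent.P273.H879

/-- the two bounds in terms of the length `y = 2 (l + log c)` of the neck -/
def KeyNeg : Prop := ∀ (X : Ext) (Θ : Gauge), Asy1 Θ →
  ∀ (k : Fin 5) (v : MT), SymT v → (∀ x : Fin 14 → H4, v (fun i => sH k (x i)) = v x) →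
  ∀ K ⊆ XD k, IsCompact K → ∃ (c M₀ C : ℝ), 0 < c ∧ 0 < M₀ ∧ 0 ≤ C ∧
    ∀ b ∈ K, ∀ l s : ℝ, s ∈ Icc (0 : ℝ) 1 → M₀ ≤ 2 * (l + Real.log c) →
      ‖PhiF X Θ v (fam k b l s) ![pr k 0 0 (-zz l s), pr k 0 0 (-(Real.pi * Complex.I) * zz l s)]‖
        ≤ C * (2 * (l + Real.log c))⁻¹ * Real.sqrt (2 * (l + Real.log c))⁻¹ ∧
      ∀ w : C6, w k.castSucc = w k.succ →
        ‖PhiF X Θ v (fam k b l s) ![pr k 0 0 (-(Real.pi * Complex.I) * zz l s), w]‖ ≤
          C * Real.sqrt (2 * (l + Real.log c))⁻¹ * ‖w‖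

theorem inv_mul_sqrt {y : ℝ} (hy : 0 < y) : y⁻¹ * Real.sqrt y⁻¹ = y ^ (-(3 / 2) : ℝ) := by
  rw [Real.sqrt_eq_rpow, ← Real.rpow_neg_one y, ← Real.rpow_mul hy.le, ← Real.rpow_add hy]
  norm_num

theorem tendsto_len (c : ℝ) : Tendsto (fun l : ℝ => 2 * (l + Real.log c)) atTop atTop :=
  (tendsto_atTop_add_const_right _ _ tendsto_id).const_mul_atTop (by norm_num)

theorem tendsto_sqrt_inv (c : ℝ) :
    Tendsto (fun l : ℝ => Real.sqrt (2 * (l + Real.log c))⁻¹) atTop (𝓝 0) := by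
  have h := (tendsto_inv_atTop_zero.comp (tendsto_len c))
  have := (Real.continuous_sqrt.tendsto 0).comp h
  rw [Real.sqrt_zero] at this
  exact this

/-- **the calculus end** -/
theorem negOf_of (h : KeyNeg) : NegOf := by
  intro X Θ hΘ k v hsym hfix K hK hc
  obtain ⟨c, M₀, C, hc0, hM0, hC, hb⟩ := h X Θ hΘ k v hsym hfix K hK hc
  obtain ⟨l₁, hl1, hmem⟩ := fam_mem' k hK hc
  set l₀ : ℝ := max l₁ (M₀ / 2 - Real.log c) with hl₀
  refine ⟨l₀, fun l => C * (2 * (l + Real.log c))⁻¹ * Real.sqrt (2 * (l + Real.log c))⁻¹,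
    fun l => C * Real.sqrt (2 * (l + Real.log c))⁻¹, hl1.trans (le_max_left _ _), ?_, ?_, ?_, ?_⟩
  · have hpos : ∀ l ∈ Ici l₀, 0 < 2 * (l + Real.log c) := by
      intro l hl
      have : M₀ / 2 - Real.log c ≤ l := (le_max_right _ _).trans hl
      linarith
    have h1 : IntegrableOn (fun y : ℝ => y ^ (-(3 / 2) : ℝ)) (Ioi (M₀ / 2)) :=
      integrableOn_Ioi_rpow_of_lt (by norm_num) (by positivity)
    have h2 : IntegrableOn (fun l : ℝ => (l + Real.log c) ^ (-(3 / 2) : ℝ))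
        (Ioi (M₀ / 2 - Real.log c)) := by
      have h3 := ((measurePreserving_add_right volume (Real.log c)).integrableOn_comp_preimage
        (MeasurableEquiv.addRight (Real.log c)).measurableEmbedding
        (f := fun y : ℝ => y ^ (-(3 / 2) : ℝ)) (s := Ioi (M₀ / 2))).2 h1
      have h4 : (fun x : ℝ => x + Real.log c) ⁻¹' Ioi (M₀ / 2) =
          Ioi (M₀ / 2 - Real.log c) := by
        ext x; simp [sub_lt_iff_lt_add]
      rw [h4] at h3
      exact h3
    have h5 : IntegrableOn (fun l : ℝ => C * (2 : ℝ) ^ (-(3 / 2) : ℝ) *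
        (l + Real.log c) ^ (-(3 / 2) : ℝ)) (Ici l₀) := by
      refine Integrable.const_mul ?_ _
      have : IntegrableOn (fun l : ℝ => (l + Real.log c) ^ (-(3 / 2) : ℝ))
          (Ici (M₀ / 2 - Real.log c)) := integrableOn_Ici_iff_integrableOn_Ioi'
            (by simp [enorm_ne_top]) |>.2 h2
      exact this.mono_set (Ici_subset_Ici.2 (le_max_right _ _))
    refine h5.congr_fun (fun l hl => ?_) measurableSet_Ici
    have hp := hpos l hl
    have hp2 : 0 < l + Real.log c := by linarith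
    show C * (2 : ℝ) ^ (-(3 / 2) : ℝ) * (l + Real.log c) ^ (-(3 / 2) : ℝ) =
      C * (2 * (l + Real.log c))⁻¹ * Real.sqrt (2 * (l + Real.log c))⁻¹
    rw [mul_assoc C, mul_assoc C, inv_mul_sqrt hp, Real.mul_rpow (by norm_num) hp2.le]
  · have h1 := (tendsto_inv_atTop_zero.comp (tendsto_len c))
    have h2 := (h1.const_mul C).mul (tendsto_sqrt_inv c)
    simpa using h2
  · simpa using (tendsto_sqrt_inv c).const_mul C
  · intro b hbK l hl s hs
    have hl2 : M₀ ≤ 2 * (l + Real.log c) := by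
      have : M₀ / 2 - Real.log c ≤ l := (le_max_right _ _).trans hl
      linarith
    obtain ⟨q1, q2⟩ := hb b hbK l s hs hl2
    exact ⟨hmem b hbK l ((le_max_left _ _).trans hl) s hs, q1, q2⟩

end Vale.Agent.P273.H828
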