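import Vale.Agent.P273.H828.AnnDefs

/-!
# P273, row ANN: integrals over the half strip
-/

noncomputable section

namespace Vale.Agent.P273.H828

open Set MeasureTheory Filter Topology
open Vale.Agent.P273.H401 Vale.Agent.P273.H681

variable {F : Type*} [NormedAddCommGroup F] [NormedSpace ℝ F]

theorem measurableSet_strip : MeasurableSet strip := by
  have h1 : IsClosed {y : Fin 2 → ℝ | 0 ≤ y 0} := isClosed_le continuous_const (by fun_prop)
  have h2 : IsClosed {y : Fin 2 → ℝ | y 1 ∈ Icc (0 : ℝ) 1} :=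
    isClosed_Icc.preimage (by fun_prop : Continuous fun y : Fin 2 → ℝ => y 1)
  exact (h1.inter h2).measurableSet

/-- the part of the strip of length `Λ` -/
def box (Λ : ℝ) : Set (Fin 2 → ℝ) := {y | y 0 ∈ Icc (0 : ℝ) Λ ∧ y 1 ∈ Icc (0 : ℝ) 1}

theorem box_eq (Λ : ℝ) : box Λ = Icc (0 : Fin 2 → ℝ) ![Λ, 1] := by
  ext y
  simp only [box, Set.mem_ofPred_eq, mem_Icc, Pi.le_def, Fin.forall_fin_two, Pi.zero_apply]
  simp
  tauto

theorem isCompact_box (Λ : ℝ) : IsCompact (box Λ) := by rw [box_eq]; exact isCompact_Icc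

theorem measurableSet_box (Λ : ℝ) : MeasurableSet (box Λ) := (isCompact_box Λ).measurableSet

theorem box_subset (Λ : ℝ) : box Λ ⊆ strip := fun y hy => ⟨hy.1.1, hy.2⟩

theorem iUnion_box : ⋃ Λ : ℝ, box Λ = strip := by
  apply subset_antisymm (iUnion_subset box_subset)
  intro y hy
  exact mem_iUnion.2 ⟨y 0, ⟨hy.1, le_rfl⟩, hy.2⟩

theorem box_mono : Monotone box := fun _ _ h _ hy => ⟨⟨hy.1.1, hy.1.2.trans h⟩, hy.2⟩

/-- integrability on the strip -/
theorem integrableOn_strip {f : (Fin 2 → ℝ) → F} (hf : ContinuousOn f strip) {l₁ : ℝ}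
    {G : ℝ → ℝ} (hG : IntegrableOn G (Ici l₁))
    (h : ∀ y ∈ strip, l₁ ≤ y 0 → ‖f y‖ ≤ G (y 0)) : IntegrableOn f strip := by
  have hU : strip ⊆ box l₁ ∪ (strip ∩ {y | l₁ ≤ y 0}) := by
    intro y hy
    rcases le_total (y 0) l₁ with h' | h'
    · exact Or.inl ⟨⟨hy.1, h'⟩, hy.2⟩
    · exact Or.inr ⟨hy, h'⟩
  refine IntegrableOn.mono_set (IntegrableOn.union ?_ ?_) hU
  · exact (hf.mono (box_subset _)).integrableOn_compact (isCompact_box _)
  · have hm : MeasurableSet (strip ∩ {y : Fin 2 → ℝ | l₁ ≤ y 0}) :=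
      measurableSet_strip.inter (isClosed_le continuous_const (by fun_prop)).measurableSet
    have hT : IntegrableOn (fun y : Fin 2 → ℝ => G (y 0))
        ({y : Fin 2 → ℝ | l₁ ≤ y 0 ∧ y 1 ∈ Icc (0 : ℝ) 1}) := by
      have e := volume_preserving_finTwoArrow ℝ
      have h3 : IntegrableOn (fun p : ℝ × ℝ => G p.1 * (1 : ℝ)) (Ici l₁ ×ˢ Icc (0 : ℝ) 1) := by
        rw [IntegrableOn, Measure.volume_eq_prod, ← Measure.prod_restrict]
        exact Integrable.mul_prod (f := G) (g := fun _ : ℝ => (1 : ℝ)) hG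
          (integrable_const _)
      have h4 := (e.integrableOn_comp_preimage
        (MeasurableEquiv.measurableEmbedding _)).2 h3
      refine (h4.congr_fun (g := fun y => G (y 0)) ?_ ?_).mono_set ?_
      · intro y _
        simp [MeasurableEquiv.finTwoArrow]
      · exact (MeasurableEquiv.measurable _) (measurableSet_Ici.prod measurableSet_Icc)
      · intro y hy
        exact ⟨hy.1, hy.2⟩
    refine Integrable.mono' (g := fun y => G (y 0)) ?_ ?_ ?_
    · exact hT.mono_set fun y hy => ⟨hy.2, hy.1.2⟩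
    · exact (hf.mono inter_subset_left).aestronglyMeasurable hm
    · refine (ae_restrict_iff' hm).2 (Eventually.of_forall fun y hy => h y hy.1 hy.2)

/-- scaling of the first coordinate -/
def sc2 (Λ : ℝ) : (Fin 2 → ℝ) →L[ℝ] (Fin 2 → ℝ) :=
  ContinuousLinearMap.pi fun k => (if k = 0 then Λ else 1) • ContinuousLinearMap.proj k

theorem sc2_apply (Λ : ℝ) (x : Fin 2 → ℝ) : sc2 Λ x = ![Λ * x 0, x 1] := by
  funext k
  fin_cases k <;> simp [sc2]

theorem det_sc2 (Λ : ℝ) : (sc2 Λ).det = Λ := by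
  have : ((sc2 Λ : (Fin 2 → ℝ) →L[ℝ] (Fin 2 → ℝ)) : (Fin 2 → ℝ) →ₗ[ℝ] (Fin 2 → ℝ)) =
      Matrix.toLin' !![Λ, 0; 0, 1] := by
    apply LinearMap.ext
    intro x
    show sc2 Λ x = _
    rw [sc2_apply]
    ext k
    fin_cases k <;> simp [Matrix.toLin'_apply, Matrix.mulVec, dotProduct, Fin.sum_univ_two]
  rw [ContinuousLinearMap.det, this, LinearMap.det_toLin', Matrix.det_fin_two_of]
  ring

theorem image_sc2 {Λ : ℝ} (hΛ : 0 < Λ) : sc2 Λ '' Icc 0 1 = box Λ := by
  ext y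
  constructor
  · rintro ⟨x, hx, rfl⟩
    rw [sc2_apply]
    refine ⟨⟨mul_nonneg hΛ.le (hx.1 0), ?_⟩, hx.1 1, hx.2 1⟩
    exact (mul_le_mul_of_nonneg_left (hx.2 0) hΛ.le).trans_eq (mul_one _)
  · rintro ⟨⟨h1, h2⟩, h3, h4⟩
    refine ⟨![y 0 / Λ, y 1], ⟨?_, ?_⟩, ?_⟩
    · intro k; fin_cases k
      · exact div_nonneg h1 hΛ.le
      · exact h3
    · intro k; fin_cases k
      · exact (div_le_one hΛ).2 h2
      · exact h4
    · rw [sc2_apply]
      funext k; fin_cases k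
      · show Λ * (y 0 / Λ) = y 0
        field_simp
      · rfl

theorem integral_scale {f : (Fin 2 → ℝ) → F} {Λ : ℝ} (hΛ : 0 < Λ) :
    Λ • ∫ y in Icc (0 : Fin 2 → ℝ) 1, f (sc2 Λ y) = ∫ y in box Λ, f y := by
  rw [← image_sc2 hΛ, integral_image_eq_integral_abs_det_fderiv_smul volume measurableSet_Icc
    (fun x _ => (sc2 Λ).hasFDerivWithinAt) ?_]
  · rw [det_sc2, abs_of_pos hΛ, ← integral_smul]
  · intro x _ y _ hxy
    rw [sc2_apply, sc2_apply] at hxy
    funext k; fin_cases k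
    · have := congrFun hxy 0
      simp only [Matrix.cons_val_zero] at this
      exact mul_left_cancel₀ hΛ.ne' this
    · exact congrFun hxy 1

/-- the integrals over the boxes converge to the integral over the strip -/
theorem tendsto_box {f : (Fin 2 → ℝ) → F} (hf : IntegrableOn f strip) :
    Tendsto (fun Λ : ℝ => ∫ y in box Λ, f y) atTop (𝓝 (∫ y in strip, f y)) := by
  have := tendsto_setIntegral_of_monotone (μ := volume) (f := f) (s := box) measurableSet_box
    box_mono (by rw [iUnion_box]; exact hf)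
  rwa [iUnion_box] at this

/-- the annulus integral of a family `Q(l, s)` as a limit of cubes -/
theorem tendsto_cube {E : Type*} [NormedAddCommGroup E] [NormedSpace ℝ E]
    {ω : E → E [⋀^Fin 2]→L[ℝ] F} {Q : (Fin 2 → ℝ) → E}
    (hQ : ∀ y ∈ strip, DifferentiableAt ℝ Q y)
    (hint : IntegrableOn (fun y => pb Q ω y (eb 2)) strip) :
    Tendsto (fun Λ : ℝ => cubeInt (pb (fun y : Fin 2 → ℝ => Q ![Λ * y 0, y 1]) ω)) atTop
      (𝓝 (∫ y in strip, pb Q ω y (eb 2))) := by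
  refine (tendsto_box hint).congr' ?_
  filter_upwards [eventually_gt_atTop 0] with Λ hΛ
  rw [← integral_scale hΛ, cubeInt, ← integral_smul]
  refine setIntegral_congr_fun measurableSet_Icc fun y hy => ?_
  have hmem : sc2 Λ y ∈ strip := by
    have : sc2 Λ y ∈ box Λ := by rw [← image_sc2 hΛ]; exact ⟨y, hy, rfl⟩
    exact box_subset _ this
  have e : (fun y : Fin 2 → ℝ => Q ![Λ * y 0, y 1]) = fun y => Q (sc2 Λ y) := by
    funext y; rw [sc2_apply]
  have hd : fderiv ℝ (fun y => Q (sc2 Λ y)) y = (fderiv ℝ Q (sc2 Λ y)).comp (sc2 Λ) := by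
    have := fderiv_comp y (hQ _ hmem) (sc2 Λ).differentiableAt
    rw [(sc2 Λ).fderiv] at this
    exact this
  simp only [e]
  show Λ • ω (Q (sc2 Λ y)) (fun j => fderiv ℝ Q (sc2 Λ y) (eb 2 j)) =
    ω (Q (sc2 Λ y)) (fun j => fderiv ℝ (fun y => Q (sc2 Λ y)) y (eb 2 j))
  rw [hd]
  have e0 : (fun j => ((fderiv ℝ Q (sc2 Λ y)).comp (sc2 Λ)) (eb 2 j)) =
      Function.update (fun j => fderiv ℝ Q (sc2 Λ y) (eb 2 j)) 0
        (Λ • fderiv ℝ Q (sc2 Λ y) (eb 2 0)) := by
    funext j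
    fin_cases j
    · show fderiv ℝ Q (sc2 Λ y) (sc2 Λ (eb 2 0)) = Λ • fderiv ℝ Q (sc2 Λ y) (eb 2 0)
      rw [← map_smul]
      congr 1
      funext k; fin_cases k <;> simp [sc2, eb]
    · show fderiv ℝ Q (sc2 Λ y) (sc2 Λ (eb 2 1)) = fderiv ℝ Q (sc2 Λ y) (eb 2 1)
      congr 1
      funext k; fin_cases k <;> simp [sc2, eb]
  rw [e0, ContinuousAlternatingMap.map_update_smul]
  congr 2
  exact (Function.update_eq_self _ _).symm

end Vale.Agent.P273.H828
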